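import Vale.Agent.P224.SP.Z5.Dat

/-!
Certificate data in dimension five: the free columns.
-/

namespace Vale.Agent.P224.SP.Z5

open Vale.Agent.P224.POS Vale.Agent.P224.SP

noncomputable section

/-- the common denominator of the polynomial columns -/
def c0 : ℕ := 20132659200

/-- factor of the approximations -/
def kB : ℕ := 1

/-- factor of the polynomial columns -/
def kF : ℕ := 1

/-- free value column 0 -/
def vf0 : VFz := ⟨⟨3, 0, 0, 0, 0⟩, [1090183123696, -5086124124576, 9533932904160, -9262705194560, 4846741284240, -1239675645408, 103426916368],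
    .c 0,
    .c 0,
    .c 0,
    .c 0⟩

/-- free value column 1 -/
def vf1 : VFz := ⟨⟨3, 0, 0, 0, 1⟩, [-2180366247392, 10172248249152, -19067865808320, 18525410389120, -9693482568480, 2479351290816, -206853832736],
    .c 0,
    .c 0,
    .c 0,
    .c 0⟩

/-- free value column 2 -/
def vf2 : VFz := ⟨⟨3, 0, 0, 0, 2⟩, [1090183123696, -5086124124576, 9533932904160, -9262705194560, 4846741284240, -1239675645408, 103426916368],
    .c 0,
    .mul (.c (-1)) (.mul (.mul (.add (.mul (.sub (.c (-4)) (.mul (.c 2) (.T))) (.P)) (.mul (.mul (.mul (.c 6) (.a)) (.add (.c 5) (.T))) (.s))) (.pow (.P) 3)) (.c 2)),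
    .c 0,
    .mul (.c (-1)) (.mul (.mul (.mul (.mul (.c 2) (.a)) (.add (.c 5) (.T))) (.pow (.P) 4)) (.c 2))⟩

/-- free value column 3 -/
def vf3 : VFz := ⟨⟨3, 0, 1, 0, 0⟩, [2039314310560, -8779918620384, 14759043264240, -12275057787200, 5028492239040, -779098423968, -21273469872],
    .c 0,
    .c 0,
    .c 0,
    .c 0⟩

/-- free value column 4 -/
def vf4 : VFz := ⟨⟨3, 0, 1, 0, 1⟩, [-1898262373728, 7387588991616, -10450220720160, 6024705185280, -363501909600, -921154442880, 249400772480],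
    .c 0,
    .c 0,
    .c 0,
    .c 0⟩

/-- free value column 5 -/
def vf5 : VFz := ⟨⟨3, 0, 1, 0, 2⟩, [-141051936832, 1392329628768, -4308822544080, 6250352601920, -4664990329440, 1700252866848, -228127302608],
    .c 0,
    .mul (.c (-1)) (.mul (.mul (.add (.mul (.sub (.c (-4)) (.mul (.c 2) (.T))) (.P)) (.mul (.mul (.mul (.c 6) (.a)) (.add (.c 5) (.T))) (.s))) (.pow (.P) 3)) (.mul (.c 2) (.t))),
    .c 0,
    .mul (.c (-1)) (.mul (.mul (.mul (.mul (.c 2) (.a)) (.add (.c 5) (.T))) (.pow (.P) 4)) (.mul (.c 2) (.t)))⟩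

/-- free value column 6 -/
def vf6 : VFz := ⟨⟨3, 0, 1, 1, 0⟩, [404039625016, -1150732433520, 458143908000, 1619000004640, -2241619687320, 1080415044144, -176413844424],
    .mul (.c (-1)) (.mul (.mul (.add (.mul (.sub (.c (-4)) (.mul (.c 2) (.T))) (.P)) (.mul (.mul (.mul (.c 6) (.a)) (.add (.c 5) (.T))) (.s))) (.pow (.P) 3)) (.c (-2))),
    .c 0,
    .mul (.c (-1)) (.mul (.mul (.mul (.mul (.c 2) (.a)) (.add (.c 5) (.T))) (.pow (.P) 4)) (.c (-2))),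
    .c 0⟩

/-- free value column 7 -/
def vf7 : VFz := ⟨⟨3, 0, 1, 1, 1⟩, [141051936832, -1392329628768, 4308822544080, -6250352601920, 4664990329440, -1700252866848, 228127302608],
    .mul (.c (-1)) (.mul (.mul (.add (.mul (.sub (.c (-4)) (.mul (.c 2) (.T))) (.P)) (.mul (.mul (.mul (.c 6) (.a)) (.add (.c 5) (.T))) (.s))) (.pow (.P) 3)) (.mul (.c (-2)) (.d))),
    .c 0,
    .mul (.c (-1)) (.mul (.mul (.mul (.mul (.c 2) (.a)) (.add (.c 5) (.T))) (.pow (.P) 4)) (.mul (.c (-2)) (.d))),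
    .c 0⟩

/-- free value column 8 -/
def vf8 : VFz := ⟨⟨3, 0, 2, 0, 0⟩, [404039625016, -1150732433520, 458143908000, 1619000004640, -2241619687320, 1080415044144, -176413844424],
    .mul (.c (-1)) (.mul (.mul (.add (.mul (.sub (.c (-4)) (.mul (.c 2) (.T))) (.P)) (.mul (.mul (.mul (.c 6) (.a)) (.add (.c 5) (.T))) (.s))) (.pow (.P) 3)) (.c 2)),
    .c 0,
    .mul (.c (-1)) (.mul (.mul (.mul (.mul (.c 2) (.a)) (.add (.c 5) (.T))) (.pow (.P) 4)) (.c 2)),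
    .c 0⟩

/-- free value column 9 -/
def vf9 : VFz := ⟨⟨3, 0, 2, 0, 1⟩, [141051936832, -1392329628768, 4308822544080, -6250352601920, 4664990329440, -1700252866848, 228127302608],
    .mul (.c (-1)) (.mul (.mul (.add (.mul (.sub (.c (-4)) (.mul (.c 2) (.T))) (.P)) (.mul (.mul (.mul (.c 6) (.a)) (.add (.c 5) (.T))) (.s))) (.pow (.P) 3)) (.mul (.c 2) (.d))),
    .c 0,
    .mul (.c (-1)) (.mul (.mul (.mul (.mul (.c 2) (.a)) (.add (.c 5) (.T))) (.pow (.P) 4)) (.mul (.c 2) (.d))),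
    .c 0⟩

/-- free value column 10 -/
def vf10 : VFz := ⟨⟨3, 0, 2, 1, 0⟩, [-105788952624, 1044247221576, -3231616908060, 4687764451440, -3498742747080, 1275189650136, -171095476956],
    .mul (.c (-1)) (.mul (.mul (.add (.mul (.sub (.c (-4)) (.mul (.c 2) (.T))) (.P)) (.mul (.mul (.mul (.c 6) (.a)) (.add (.c 5) (.T))) (.s))) (.pow (.P) 3)) (.mul (.c (-2)) (.t))),
    .c 0,
    .mul (.c (-1)) (.mul (.mul (.mul (.mul (.c 2) (.a)) (.add (.c 5) (.T))) (.pow (.P) 4)) (.mul (.c (-2)) (.t))),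
    .c 0⟩

/-- free value column 11 -/
def vf11 : VFz := ⟨⟨3, 0, 3, 0, 0⟩, [-35262984208, 348082407192, -1077205636020, 1562588150480, -1166247582360, 425063216712, -57031825652],
    .mul (.c (-1)) (.mul (.mul (.add (.mul (.sub (.c (-4)) (.mul (.c 2) (.T))) (.P)) (.mul (.mul (.mul (.c 6) (.a)) (.add (.c 5) (.T))) (.s))) (.pow (.P) 3)) (.mul (.c 6) (.t))),
    .c 0,
    .mul (.c (-1)) (.mul (.mul (.mul (.mul (.c 2) (.a)) (.add (.c 5) (.T))) (.pow (.P) 4)) (.mul (.c 6) (.t))),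
    .c 0⟩

/-- free value column 12 -/
def vf12 : VFz := ⟨⟨3, 1, 0, 0, 0⟩, [-2177812349792, 9640644530112, -17007067916160, 15285888723840, -7162578739200, 1428307789056, -6459969296],
    .c 0,
    .c 0,
    .c 0,
    .c 0⟩

/-- free value column 13 -/
def vf13 : VFz := ⟨⟨3, 1, 0, 0, 1⟩, [2175258452192, -9109040811072, 14946270024000, -12046367058560, 4631674909920, -377264287296, -193933894144],
    .c 0,
    .c 0,
    .c 0,
    .c 0⟩

/-- free value column 14 -/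
def vf14 : VFz := ⟨⟨3, 1, 0, 0, 2⟩, [2553897600, -531603719040, 2060797892160, -3239521665280, 2530903829280, -1051043501760, 200393863440],
    .c 0,
    .mul (.c (-1)) (.mul (.mul (.mul (.add (.mul (.sub (.c (-4)) (.mul (.c 2) (.T))) (.P)) (.mul (.mul (.mul (.c 6) (.a)) (.add (.c 5) (.T))) (.s))) (.w)) (.pow (.P) 3)) (.c 2)),
    .c 0,
    .mul (.c (-1)) (.mul (.mul (.mul (.mul (.mul (.c 2) (.a)) (.add (.c 5) (.T))) (.w)) (.pow (.P) 4)) (.c 2))⟩

/-- free value column 15 -/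
def vf15 : VFz := ⟨⟨3, 1, 1, 0, 0⟩, [-1893154578528, 6332092731456, -6674311283040, 694523121920, 3181791810240, -2097769703040, 430283591392],
    .c 0,
    .c 0,
    .c 0,
    .c 0⟩

/-- free value column 16 -/
def vf16 : VFz := ⟨⟨3, 1, 1, 0, 1⟩, [-287211668864, 3832444339776, -12047868178080, 16682026000000, -11358760440000, 3651649250496, -417232516160],
    .c 0,
    .c 0,
    .c 0,
    .c 0⟩

/-- free value column 17 -/
def vf17 : VFz := ⟨⟨3, 1, 1, 0, 2⟩, [0, 7711177920, -345686347200, 1148861267200, -1516513938720, 925471743360, -219904907968],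
    .c 0,
    .mul (.c (-1)) (.mul (.mul (.mul (.add (.mul (.sub (.c (-4)) (.mul (.c 2) (.T))) (.P)) (.mul (.mul (.mul (.c 6) (.a)) (.add (.c 5) (.T))) (.s))) (.w)) (.pow (.P) 3)) (.mul (.c 2) (.t))),
    .c 0,
    .mul (.c (-1)) (.mul (.mul (.mul (.mul (.mul (.c 2) (.a)) (.add (.c 5) (.T))) (.w)) (.pow (.P) 4)) (.mul (.c 2) (.t)))⟩

/-- free value column 18 -/
def vf18 : VFz := ⟨⟨3, 1, 1, 1, 0⟩, [142328885632, -1650420310368, 4993535142960, -6721252167360, 4413928305360, -1300302874368, 108419326360],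
    .mul (.c (-1)) (.mul (.mul (.mul (.add (.mul (.sub (.c (-4)) (.mul (.c 2) (.T))) (.P)) (.mul (.mul (.mul (.c 6) (.a)) (.add (.c 5) (.T))) (.s))) (.w)) (.pow (.P) 3)) (.c (-2))),
    .c 0,
    .mul (.c (-1)) (.mul (.mul (.mul (.mul (.mul (.c 2) (.a)) (.add (.c 5) (.T))) (.w)) (.pow (.P) 4)) (.c (-2))),
    .c 0⟩

/-- free value column 19 -/
def vf19 : VFz := ⟨⟨3, 1, 1, 1, 1⟩, [0, -7711177920, 345686347200, -1148861267200, 1516513938720, -925471743360, 219904907968],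
    .mul (.c (-1)) (.mul (.mul (.mul (.add (.mul (.sub (.c (-4)) (.mul (.c 2) (.T))) (.P)) (.mul (.mul (.mul (.c 6) (.a)) (.add (.c 5) (.T))) (.s))) (.w)) (.pow (.P) 3)) (.mul (.c (-2)) (.d))),
    .c 0,
    .mul (.c (-1)) (.mul (.mul (.mul (.mul (.mul (.c 2) (.a)) (.add (.c 5) (.T))) (.w)) (.pow (.P) 4)) (.mul (.c (-2)) (.d))),
    .c 0⟩

/-- free value column 20 -/
def vf20 : VFz := ⟨⟨3, 1, 2, 0, 0⟩, [142328885632, -1650420310368, 4993535142960, -6721252167360, 4413928305360, -1300302874368, 108419326360],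
    .mul (.c (-1)) (.mul (.mul (.mul (.add (.mul (.sub (.c (-4)) (.mul (.c 2) (.T))) (.P)) (.mul (.mul (.mul (.c 6) (.a)) (.add (.c 5) (.T))) (.s))) (.w)) (.pow (.P) 3)) (.c 2)),
    .c 0,
    .mul (.c (-1)) (.mul (.mul (.mul (.mul (.mul (.c 2) (.a)) (.add (.c 5) (.T))) (.w)) (.pow (.P) 4)) (.c 2)),
    .c 0⟩

/-- free value column 21 -/
def vf21 : VFz := ⟨⟨3, 1, 2, 0, 1⟩, [0, -7711177920, 345686347200, -1148861267200, 1516513938720, -925471743360, 219904907968],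
    .mul (.c (-1)) (.mul (.mul (.mul (.add (.mul (.sub (.c (-4)) (.mul (.c 2) (.T))) (.P)) (.mul (.mul (.mul (.c 6) (.a)) (.add (.c 5) (.T))) (.s))) (.w)) (.pow (.P) 3)) (.mul (.c 2) (.d))),
    .c 0,
    .mul (.c (-1)) (.mul (.mul (.mul (.mul (.mul (.c 2) (.a)) (.add (.c 5) (.T))) (.w)) (.pow (.P) 4)) (.mul (.c 2) (.d))),
    .c 0⟩

/-- free value column 22 -/
def vf22 : VFz := ⟨⟨3, 1, 2, 1, 0⟩, [0, 5783383440, -259264760400, 861645950400, -1137385454040, 694103807520, -164928680976],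
    .mul (.c (-1)) (.mul (.mul (.mul (.add (.mul (.sub (.c (-4)) (.mul (.c 2) (.T))) (.P)) (.mul (.mul (.mul (.c 6) (.a)) (.add (.c 5) (.T))) (.s))) (.w)) (.pow (.P) 3)) (.mul (.c (-2)) (.t))),
    .c 0,
    .mul (.c (-1)) (.mul (.mul (.mul (.mul (.mul (.c 2) (.a)) (.add (.c 5) (.T))) (.w)) (.pow (.P) 4)) (.mul (.c (-2)) (.t))),
    .c 0⟩

/-- free value column 23 -/
def vf23 : VFz := ⟨⟨3, 1, 3, 0, 0⟩, [0, 1927794480, -86421586800, 287215316800, -379128484680, 231367935840, -54976226992],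
    .mul (.c (-1)) (.mul (.mul (.mul (.add (.mul (.sub (.c (-4)) (.mul (.c 2) (.T))) (.P)) (.mul (.mul (.mul (.c 6) (.a)) (.add (.c 5) (.T))) (.s))) (.w)) (.pow (.P) 3)) (.mul (.c 6) (.t))),
    .c 0,
    .mul (.c (-1)) (.mul (.mul (.mul (.mul (.mul (.c 2) (.a)) (.add (.c 5) (.T))) (.w)) (.pow (.P) 4)) (.mul (.c 6) (.t))),
    .c 0⟩

/-- free value column 24 -/
def vf24 : VFz := ⟨⟨3, 2, 0, 0, 0⟩, [1085075328496, -4015300217472, 5559928961040, -3286560862400, 307425309120, 708248042304, -319821535008],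
    .c 0,
    .c 0,
    .c 0,
    .c 0⟩

/-- free value column 25 -/
def vf25 : VFz := ⟨⟨3, 2, 0, 0, 1⟩, [5107795200, -1078440376128, 3826412101920, -5473245333760, 4016824291680, -1793760371904, 445709175872],
    .c 0,
    .c 0,
    .c 0,
    .c 0⟩

/-- free value column 26 -/
def vf26 : VFz := ⟨⟨3, 2, 0, 0, 2⟩, [0, 7616469024, 147591841200, -502898998400, 522491683440, -154163315808, -22460724496],
    .c 0,
    .mul (.c (-1)) (.mul (.mul (.mul (.add (.mul (.sub (.c (-4)) (.mul (.c 2) (.T))) (.P)) (.mul (.mul (.mul (.c 6) (.a)) (.add (.c 5) (.T))) (.s))) (.pow (.w) 2)) (.pow (.P) 3)) (.c 2)),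
    .c 0,
    .mul (.c (-1)) (.mul (.mul (.mul (.mul (.mul (.c 2) (.a)) (.add (.c 5) (.T))) (.pow (.w) 2)) (.pow (.P) 4)) (.c 2))⟩

/-- free value column 27 -/
def vf27 : VFz := ⟨⟨3, 2, 1, 0, 0⟩, [-146159732032, 2451724521408, -7387518620880, 9332805987520, -5618916853680, 1659794600928, -240195923104],
    .c 0,
    .c 0,
    .c 0,
    .c 0⟩

/-- free value column 28 -/
def vf28 : VFz := ⟨⟨3, 2, 1, 0, 1⟩, [0, 7435673088, -1099243038240, 3489659358720, -4137751024320, 2125820420544, -382549845824],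
    .c 0,
    .c 0,
    .c 0,
    .c 0⟩

/-- free value column 29 -/
def vf29 : VFz := ⟨⟨3, 2, 1, 0, 2⟩, [0, -3623127648, 56343330720, -93069413760, 29869890000, 16724848896, -6169260560],
    .c 0,
    .mul (.c (-1)) (.mul (.mul (.mul (.add (.mul (.sub (.c (-4)) (.mul (.c 2) (.T))) (.P)) (.mul (.mul (.mul (.c 6) (.a)) (.add (.c 5) (.T))) (.s))) (.pow (.w) 2)) (.pow (.P) 3)) (.mul (.c 2) (.t))),
    .c 0,
    .mul (.c (-1)) (.mul (.mul (.mul (.mul (.mul (.c 2) (.a)) (.add (.c 5) (.T))) (.pow (.w) 2)) (.pow (.P) 4)) (.mul (.c 2) (.t)))⟩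

/-- free value column 30 -/
def vf30 : VFz := ⟨⟨3, 2, 1, 1, 0⟩, [0, -7526071056, 475825598520, -1493380180160, 1807629670440, -985828552368, 202505285160],
    .mul (.c (-1)) (.mul (.mul (.mul (.add (.mul (.sub (.c (-4)) (.mul (.c 2) (.T))) (.P)) (.mul (.mul (.mul (.c 6) (.a)) (.add (.c 5) (.T))) (.s))) (.pow (.w) 2)) (.pow (.P) 3)) (.c (-2))),
    .c 0,
    .mul (.c (-1)) (.mul (.mul (.mul (.mul (.mul (.c 2) (.a)) (.add (.c 5) (.T))) (.pow (.w) 2)) (.pow (.P) 4)) (.c (-2))),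
    .c 0⟩

/-- free value column 31 -/
def vf31 : VFz := ⟨⟨3, 2, 1, 1, 1⟩, [0, 3623127648, -56343330720, 93069413760, -29869890000, -16724848896, 6169260560],
    .mul (.c (-1)) (.mul (.mul (.mul (.add (.mul (.sub (.c (-4)) (.mul (.c 2) (.T))) (.P)) (.mul (.mul (.mul (.c 6) (.a)) (.add (.c 5) (.T))) (.s))) (.pow (.w) 2)) (.pow (.P) 3)) (.mul (.c (-2)) (.d))),
    .c 0,
    .mul (.c (-1)) (.mul (.mul (.mul (.mul (.mul (.c 2) (.a)) (.add (.c 5) (.T))) (.pow (.w) 2)) (.pow (.P) 4)) (.mul (.c (-2)) (.d))),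
    .c 0⟩

/-- free value column 32 -/
def vf32 : VFz := ⟨⟨3, 2, 2, 0, 0⟩, [0, -7526071056, 475825598520, -1493380180160, 1807629670440, -985828552368, 202505285160],
    .mul (.c (-1)) (.mul (.mul (.mul (.add (.mul (.sub (.c (-4)) (.mul (.c 2) (.T))) (.P)) (.mul (.mul (.mul (.c 6) (.a)) (.add (.c 5) (.T))) (.s))) (.pow (.w) 2)) (.pow (.P) 3)) (.c 2)),
    .c 0,
    .mul (.c (-1)) (.mul (.mul (.mul (.mul (.mul (.c 2) (.a)) (.add (.c 5) (.T))) (.pow (.w) 2)) (.pow (.P) 4)) (.c 2)),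
    .c 0⟩

/-- free value column 33 -/
def vf33 : VFz := ⟨⟨3, 2, 2, 0, 1⟩, [0, 3623127648, -56343330720, 93069413760, -29869890000, -16724848896, 6169260560],
    .mul (.c (-1)) (.mul (.mul (.mul (.add (.mul (.sub (.c (-4)) (.mul (.c 2) (.T))) (.P)) (.mul (.mul (.mul (.c 6) (.a)) (.add (.c 5) (.T))) (.s))) (.pow (.w) 2)) (.pow (.P) 3)) (.mul (.c 2) (.d))),
    .c 0,
    .mul (.c (-1)) (.mul (.mul (.mul (.mul (.mul (.c 2) (.a)) (.add (.c 5) (.T))) (.pow (.w) 2)) (.pow (.P) 4)) (.mul (.c 2) (.d))),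
    .c 0⟩

/-- free value column 34 -/
def vf34 : VFz := ⟨⟨3, 2, 2, 1, 0⟩, [0, -2717345736, 42257498040, -69802060320, 22402417500, 12543636672, -4626945420],
    .mul (.c (-1)) (.mul (.mul (.mul (.add (.mul (.sub (.c (-4)) (.mul (.c 2) (.T))) (.P)) (.mul (.mul (.mul (.c 6) (.a)) (.add (.c 5) (.T))) (.s))) (.pow (.w) 2)) (.pow (.P) 3)) (.mul (.c (-2)) (.t))),
    .c 0,
    .mul (.c (-1)) (.mul (.mul (.mul (.mul (.mul (.c 2) (.a)) (.add (.c 5) (.T))) (.pow (.w) 2)) (.pow (.P) 4)) (.mul (.c (-2)) (.t))),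
    .c 0⟩

/-- free value column 35 -/
def vf35 : VFz := ⟨⟨3, 2, 3, 0, 0⟩, [0, -905781912, 14085832680, -23267353440, 7467472500, 4181212224, -1542315140],
    .mul (.c (-1)) (.mul (.mul (.mul (.add (.mul (.sub (.c (-4)) (.mul (.c 2) (.T))) (.P)) (.mul (.mul (.mul (.c 6) (.a)) (.add (.c 5) (.T))) (.s))) (.pow (.w) 2)) (.pow (.P) 3)) (.mul (.c 6) (.t))),
    .c 0,
    .mul (.c (-1)) (.mul (.mul (.mul (.mul (.mul (.c 2) (.a)) (.add (.c 5) (.T))) (.pow (.w) 2)) (.pow (.P) 4)) (.mul (.c 6) (.t))),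
    .c 0⟩

/-- free value column 36 -/
def vf36 : VFz := ⟨⟨3, 3, 0, 0, 0⟩, [2553897600, -546892387200, 1772844383520, -2303063155840, 1674207256800, -939938909664, 316417822224],
    .c 0,
    .c 0,
    .c 0,
    .c 0⟩

/-- free value column 37 -/
def vf37 : VFz := ⟨⟨3, 3, 0, 0, 1⟩, [0, 15344398272, 280723334880, -867119022080, 668409778080, 86117447424, -187126468576],
    .c 0,
    .c 0,
    .c 0,
    .c 0⟩

/-- free value column 38 -/
def vf38 : VFz := ⟨⟨3, 3, 0, 0, 2⟩, [0, -55730112, 7230173760, -69339487360, 188286794400, -197222039520, 71102509792],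
    .c 0,
    .mul (.c (-1)) (.mul (.mul (.mul (.add (.mul (.sub (.c (-4)) (.mul (.c 2) (.T))) (.P)) (.mul (.mul (.mul (.c 6) (.a)) (.add (.c 5) (.T))) (.s))) (.pow (.w) 3)) (.pow (.P) 3)) (.c 2)),
    .c 0,
    .mul (.c (-1)) (.mul (.mul (.mul (.mul (.mul (.c 2) (.a)) (.add (.c 5) (.T))) (.pow (.w) 3)) (.pow (.P) 4)) (.c 2))⟩

/-- free value column 39 -/
def vf39 : VFz := ⟨⟨3, 3, 1, 0, 0⟩, [0, -59084064, -737374809600, 2176411340480, -2194236668880, 773188672032, -14474596400],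
    .c 0,
    .c 0,
    .c 0,
    .c 0⟩

/-- free value column 40 -/
def vf40 : VFz := ⟨⟨3, 3, 1, 0, 1⟩, [0, -7790557056, 94783246080, 3955699840, -417687464640, 493325629056, -166474184448],
    .c 0,
    .c 0,
    .c 0,
    .c 0⟩

/-- free value column 41 -/
def vf41 : VFz := ⟨⟨3, 3, 1, 0, 2⟩, [0, 327880992, 1721533920, -25707776320, 50426827920, -32715926112, 5965321872],
    .c 0,
    .mul (.c (-1)) (.mul (.mul (.mul (.add (.mul (.sub (.c (-4)) (.mul (.c 2) (.T))) (.P)) (.mul (.mul (.mul (.c 6) (.a)) (.add (.c 5) (.T))) (.s))) (.pow (.w) 3)) (.pow (.P) 3)) (.mul (.c 2) (.t))),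
    .c 0,
    .mul (.c (-1)) (.mul (.mul (.mul (.mul (.mul (.c 2) (.a)) (.add (.c 5) (.T))) (.pow (.w) 3)) (.pow (.P) 4)) (.mul (.c 2) (.t)))⟩

/-- free value column 42 -/
def vf42 : VFz := ⟨⟨3, 3, 1, 1, 0⟩, [0, 3923143584, -51006709920, 32691893760, 114700335120, -148051794768, 47685837328],
    .mul (.c (-1)) (.mul (.mul (.mul (.add (.mul (.sub (.c (-4)) (.mul (.c 2) (.T))) (.P)) (.mul (.mul (.mul (.c 6) (.a)) (.add (.c 5) (.T))) (.s))) (.pow (.w) 3)) (.pow (.P) 3)) (.c (-2))),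
    .c 0,
    .mul (.c (-1)) (.mul (.mul (.mul (.mul (.mul (.c 2) (.a)) (.add (.c 5) (.T))) (.pow (.w) 3)) (.pow (.P) 4)) (.c (-2))),
    .c 0⟩

/-- free value column 43 -/
def vf43 : VFz := ⟨⟨3, 3, 1, 1, 1⟩, [0, -327880992, -1721533920, 25707776320, -50426827920, 32715926112, -5965321872],
    .mul (.c (-1)) (.mul (.mul (.mul (.add (.mul (.sub (.c (-4)) (.mul (.c 2) (.T))) (.P)) (.mul (.mul (.mul (.c 6) (.a)) (.add (.c 5) (.T))) (.s))) (.pow (.w) 3)) (.pow (.P) 3)) (.mul (.c (-2)) (.d))),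
    .c 0,
    .mul (.c (-1)) (.mul (.mul (.mul (.mul (.mul (.c 2) (.a)) (.add (.c 5) (.T))) (.pow (.w) 3)) (.pow (.P) 4)) (.mul (.c (-2)) (.d))),
    .c 0⟩

/-- free value column 44 -/
def vf44 : VFz := ⟨⟨3, 3, 2, 0, 0⟩, [0, 3923143584, -51006709920, 32691893760, 114700335120, -148051794768, 47685837328],
    .mul (.c (-1)) (.mul (.mul (.mul (.add (.mul (.sub (.c (-4)) (.mul (.c 2) (.T))) (.P)) (.mul (.mul (.mul (.c 6) (.a)) (.add (.c 5) (.T))) (.s))) (.pow (.w) 3)) (.pow (.P) 3)) (.c 2)),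
    .c 0,
    .mul (.c (-1)) (.mul (.mul (.mul (.mul (.mul (.c 2) (.a)) (.add (.c 5) (.T))) (.pow (.w) 3)) (.pow (.P) 4)) (.c 2)),
    .c 0⟩

/-- free value column 45 -/
def vf45 : VFz := ⟨⟨3, 3, 2, 0, 1⟩, [0, -327880992, -1721533920, 25707776320, -50426827920, 32715926112, -5965321872],
    .mul (.c (-1)) (.mul (.mul (.mul (.add (.mul (.sub (.c (-4)) (.mul (.c 2) (.T))) (.P)) (.mul (.mul (.mul (.c 6) (.a)) (.add (.c 5) (.T))) (.s))) (.pow (.w) 3)) (.pow (.P) 3)) (.mul (.c 2) (.d))),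
    .c 0,
    .mul (.c (-1)) (.mul (.mul (.mul (.mul (.mul (.c 2) (.a)) (.add (.c 5) (.T))) (.pow (.w) 3)) (.pow (.P) 4)) (.mul (.c 2) (.d))),
    .c 0⟩

/-- free value column 46 -/
def vf46 : VFz := ⟨⟨3, 3, 2, 1, 0⟩, [0, 245910744, 1291150440, -19280832240, 37820120940, -24536944584, 4473991404],
    .mul (.c (-1)) (.mul (.mul (.mul (.add (.mul (.sub (.c (-4)) (.mul (.c 2) (.T))) (.P)) (.mul (.mul (.mul (.c 6) (.a)) (.add (.c 5) (.T))) (.s))) (.pow (.w) 3)) (.pow (.P) 3)) (.mul (.c (-2)) (.t))),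
    .c 0,
    .mul (.c (-1)) (.mul (.mul (.mul (.mul (.mul (.c 2) (.a)) (.add (.c 5) (.T))) (.pow (.w) 3)) (.pow (.P) 4)) (.mul (.c (-2)) (.t))),
    .c 0⟩

/-- free value column 47 -/
def vf47 : VFz := ⟨⟨3, 3, 3, 0, 0⟩, [0, 81970248, 430383480, -6426944080, 12606706980, -8178981528, 1491330468],
    .mul (.c (-1)) (.mul (.mul (.mul (.add (.mul (.sub (.c (-4)) (.mul (.c 2) (.T))) (.P)) (.mul (.mul (.mul (.c 6) (.a)) (.add (.c 5) (.T))) (.s))) (.pow (.w) 3)) (.pow (.P) 3)) (.mul (.c 6) (.t))),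
    .c 0,
    .mul (.c (-1)) (.mul (.mul (.mul (.mul (.mul (.c 2) (.a)) (.add (.c 5) (.T))) (.pow (.w) 3)) (.pow (.P) 4)) (.mul (.c 6) (.t))),
    .c 0⟩

/-- free value column 48 -/
def vf48 : VFz := ⟨⟨3, 4, 0, 0, 0⟩, [0, 7727929248, 133131493680, -364220023680, 145918094640, 240280763232, -164665744080],
    .c 0,
    .c 0,
    .c 0,
    .c 0⟩

/-- free value column 49 -/
def vf49 : VFz := ⟨⟨3, 4, 0, 0, 1⟩, [0, -111460224, 14460347520, -138678974720, 376573588800, -394444079040, 142205019584],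
    .c 0,
    .c 0,
    .c 0,
    .c 0⟩

/-- free value column 50 -/
def vf50 : VFz := ⟨⟨3, 4, 1, 0, 0⟩, [0, -4167429408, 38439915360, 97025113600, -447557354640, 476600780160, -160304923888],
    .c 0,
    .c 0,
    .c 0,
    .c 0⟩

/-- free value column 51 -/
def vf51 : VFz := ⟨⟨3, 4, 1, 0, 1⟩, [0, 655761984, 3443067840, -51415552640, 100853655840, -65431852224, 11930643744],
    .c 0,
    .c 0,
    .c 0,
    .c 0⟩

/-- free value column 52 -/
def vf52 : VFz := ⟨⟨3, 4, 1, 1, 0⟩, [0, -327880992, -1721533920, 25707776320, -50426827920, 32715926112, -5965321872],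
    .mul (.c (-1)) (.mul (.mul (.mul (.add (.mul (.sub (.c (-4)) (.mul (.c 2) (.T))) (.P)) (.mul (.mul (.mul (.c 6) (.a)) (.add (.c 5) (.T))) (.s))) (.pow (.w) 4)) (.pow (.P) 3)) (.c (-2))),
    .c 0,
    .mul (.c (-1)) (.mul (.mul (.mul (.mul (.mul (.c 2) (.a)) (.add (.c 5) (.T))) (.pow (.w) 4)) (.pow (.P) 4)) (.c (-2))),
    .c 0⟩

/-- free value column 53 -/
def vf53 : VFz := ⟨⟨3, 4, 2, 0, 0⟩, [0, -327880992, -1721533920, 25707776320, -50426827920, 32715926112, -5965321872],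
    .mul (.c (-1)) (.mul (.mul (.mul (.add (.mul (.sub (.c (-4)) (.mul (.c 2) (.T))) (.P)) (.mul (.mul (.mul (.c 6) (.a)) (.add (.c 5) (.T))) (.s))) (.pow (.w) 4)) (.pow (.P) 3)) (.c 2)),
    .c 0,
    .mul (.c (-1)) (.mul (.mul (.mul (.mul (.mul (.c 2) (.a)) (.add (.c 5) (.T))) (.pow (.w) 4)) (.pow (.P) 4)) (.c 2)),
    .c 0⟩

/-- free value column 54 -/
def vf54 : VFz := ⟨⟨3, 5, 0, 0, 0⟩, [0, -55730112, 7230173760, -69339487360, 188286794400, -197222039520, 71102509792],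
    .c 0,
    .c 0,
    .c 0,
    .c 0⟩

/-- free value column 55 -/
def vf55 : VFz := ⟨⟨3, 5, 1, 0, 0⟩, [0, 327880992, 1721533920, -25707776320, 50426827920, -32715926112, 5965321872],
    .c 0,
    .c 0,
    .c 0,
    .c 0⟩

/-- free value column 56 -/
def vf56 : VFz := ⟨⟨4, 0, 0, 0, 0⟩, [-1913133770416, 10288067342992, -23219423056656, 28415767636400, -20282323533200, 8408062093488, -1871137197376, 174120484768],
    .c 0,
    .c 0,
    .c 0,
    .c 0⟩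

/-- free value column 57 -/
def vf57 : VFz := ⟨⟨4, 0, 0, 0, 1⟩, [3826267540832, -20576134685984, 46438846113312, -56831535272800, 40564647066400, -16816124186976, 3742274394752, -348240969536],
    .c 0,
    .c 0,
    .c 0,
    .c 0⟩

/-- free value column 58 -/
def vf58 : VFz := ⟨⟨4, 0, 0, 0, 2⟩, [-1913133770416, 10288067342992, -23219423056656, 28415767636400, -20282323533200, 8408062093488, -1871137197376, 174120484768],
    .c 0,
    .mul (.c (-1)) (.mul (.mul (.add (.mul (.sub (.c (-4)) (.mul (.c 2) (.T))) (.P)) (.mul (.mul (.mul (.c 8) (.a)) (.add (.c 5) (.T))) (.s))) (.pow (.P) 2)) (.c 2)),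
    .c 0,
    .mul (.c (-1)) (.mul (.mul (.mul (.mul (.c 2) (.a)) (.add (.c 5) (.T))) (.pow (.P) 3)) (.c 2))⟩

/-- free value column 59 -/
def vf59 : VFz := ⟨⟨4, 0, 1, 0, 0⟩, [-3451009120112, 17166905503472, -35031873699600, 37451385905360, -22111232714960, 6909283615056, -975230408240, 41770919024],
    .c 0,
    .c 0,
    .c 0,
    .c 0⟩

/-- free value column 60 -/
def vf60 : VFz := ⟨⟨4, 0, 1, 0, 1⟩, [3075750699392, -13757676320960, 23624901285888, -18071236537920, 3657818363520, 2997556956864, -1791813578272, 264699131488],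
    .c 0,
    .c 0,
    .c 0,
    .c 0⟩

/-- free value column 61 -/
def vf61 : VFz := ⟨⟨4, 0, 1, 0, 2⟩, [375258420720, -3409229182512, 11406972413712, -19380149367440, 18453414351440, -9906840571920, 2767043986512, -306470050512],
    .c 0,
    .mul (.c (-1)) (.mul (.mul (.add (.mul (.sub (.c (-4)) (.mul (.c 2) (.T))) (.P)) (.mul (.mul (.mul (.c 8) (.a)) (.add (.c 5) (.T))) (.s))) (.pow (.P) 2)) (.mul (.c 2) (.t))),
    .c 0,
    .mul (.c (-1)) (.mul (.mul (.mul (.mul (.c 2) (.a)) (.add (.c 5) (.T))) (.pow (.P) 3)) (.mul (.c 2) (.t)))⟩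

/-- free value column 62 -/
def vf62 : VFz := ⟨⟨4, 0, 1, 1, 0⟩, [-1680738530000, 9809883338648, -13515507586056, -1845643889080, 14181157246360, -7298775823800, 609347487600, -219409808128],
    .mul (.c (-1)) (.mul (.mul (.add (.mul (.sub (.c (-4)) (.mul (.c 2) (.T))) (.P)) (.mul (.mul (.mul (.c 8) (.a)) (.add (.c 5) (.T))) (.s))) (.pow (.P) 2)) (.c (-2))),
    .c 0,
    .mul (.c (-1)) (.mul (.mul (.mul (.mul (.c 2) (.a)) (.add (.c 5) (.T))) (.pow (.P) 3)) (.c (-2))),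
    .c 0⟩

/-- free value column 63 -/
def vf63 : VFz := ⟨⟨4, 0, 1, 1, 1⟩, [2610143562896, -5473896951264, -8814507399192, 34720177305520, -39151499283680, 20281020483120, -4742733430640, 306470050512],
    .mul (.c (-1)) (.mul (.mul (.add (.mul (.sub (.c (-4)) (.mul (.c 2) (.T))) (.P)) (.mul (.mul (.mul (.c 8) (.a)) (.add (.c 5) (.T))) (.s))) (.pow (.P) 2)) (.mul (.c (-2)) (.d))),
    .c 0,
    .mul (.c (-1)) (.mul (.mul (.mul (.mul (.c 2) (.a)) (.add (.c 5) (.T))) (.pow (.P) 3)) (.mul (.c (-2)) (.d))),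
    .c 0⟩

/-- free value column 64 -/
def vf64 : VFz := ⟨⟨4, 0, 1, 1, 2⟩, [64725782504, -1415090867328, 4224210871200, -4751533507360, 2034218617320, -16424472864, -142204863304],
    .mul (.c (-1)) (.mul (.mul (.add (.mul (.sub (.c (-4)) (.mul (.c 2) (.T))) (.P)) (.mul (.mul (.mul (.c 8) (.a)) (.add (.c 5) (.T))) (.s))) (.pow (.P) 2)) (.mul (.c (-2)) (.pow (.d) 2))),
    .mul (.c (-1)) (.mul (.mul (.add (.mul (.sub (.c (-4)) (.mul (.c 2) (.T))) (.P)) (.mul (.mul (.mul (.c 8) (.a)) (.add (.c 5) (.T))) (.s))) (.pow (.P) 2)) (.mul (.c 2) (.pow (.t) 2))),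
    .mul (.c (-1)) (.mul (.mul (.mul (.mul (.c 2) (.a)) (.add (.c 5) (.T))) (.pow (.P) 3)) (.mul (.c (-2)) (.pow (.d) 2))),
    .mul (.c (-1)) (.mul (.mul (.mul (.mul (.c 2) (.a)) (.add (.c 5) (.T))) (.pow (.P) 3)) (.mul (.c 2) (.pow (.t) 2)))⟩

/-- free value column 65 -/
def vf65 : VFz := ⟨⟨4, 0, 2, 0, 0⟩, [647573166032, -9170456095336, 21558451099224, -18001954224120, 6511785157960, -4139692172280, 2769193561440, -219409808128],
    .mul (.c (-1)) (.mul (.mul (.add (.mul (.sub (.c (-4)) (.mul (.c 2) (.T))) (.P)) (.mul (.mul (.mul (.c 8) (.a)) (.add (.c 5) (.T))) (.s))) (.pow (.P) 2)) (.c 2)),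
    .c 0,
    .mul (.c (-1)) (.mul (.mul (.mul (.mul (.c 2) (.a)) (.add (.c 5) (.T))) (.pow (.P) 3)) (.c 2)),
    .c 0⟩

/-- free value column 66 -/
def vf66 : VFz := ⟨⟨4, 0, 2, 0, 1⟩, [-3619563534352, 17952718785600, -30896280913032, 23046255458800, -5892203888480, -401641447824, -222535089168, 306470050512],
    .mul (.c (-1)) (.mul (.mul (.add (.mul (.sub (.c (-4)) (.mul (.c 2) (.T))) (.P)) (.mul (.mul (.mul (.c 8) (.a)) (.add (.c 5) (.T))) (.s))) (.pow (.P) 2)) (.mul (.c 2) (.d))),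
    .c 0,
    .mul (.c (-1)) (.mul (.mul (.mul (.mul (.c 2) (.a)) (.add (.c 5) (.T))) (.pow (.P) 3)) (.mul (.c 2) (.d))),
    .c 0⟩

/-- free value column 67 -/
def vf67 : VFz := ⟨⟨4, 0, 2, 0, 2⟩, [64725782504, -1415090867328, 4224210871200, -4751533507360, 2034218617320, -16424472864, -142204863304],
    .mul (.c (-1)) (.mul (.mul (.add (.mul (.sub (.c (-4)) (.mul (.c 2) (.T))) (.P)) (.mul (.mul (.mul (.c 8) (.a)) (.add (.c 5) (.T))) (.s))) (.pow (.P) 2)) (.mul (.c 2) (.pow (.d) 2))),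
    .mul (.c (-1)) (.mul (.mul (.add (.mul (.sub (.c (-4)) (.mul (.c 2) (.T))) (.P)) (.mul (.mul (.mul (.c 8) (.a)) (.add (.c 5) (.T))) (.s))) (.pow (.P) 2)) (.mul (.c 2) (.pow (.t) 2))),
    .mul (.c (-1)) (.mul (.mul (.mul (.mul (.c 2) (.a)) (.add (.c 5) (.T))) (.pow (.P) 3)) (.mul (.c 2) (.pow (.d) 2))),
    .mul (.c (-1)) (.mul (.mul (.mul (.mul (.c 2) (.a)) (.add (.c 5) (.T))) (.pow (.P) 3)) (.mul (.c 2) (.pow (.t) 2)))⟩

/-- free value column 68 -/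
def vf68 : VFz := ⟨⟨4, 0, 2, 1, 0⟩, [1048011049964, -14680419667020, 51960323670624, -80846519421340, 62526499161840, -23417823165900, 3634258960992, -229852537884],
    .mul (.c (-1)) (.mul (.mul (.add (.mul (.sub (.c (-4)) (.mul (.c 2) (.T))) (.P)) (.mul (.mul (.mul (.c 8) (.a)) (.add (.c 5) (.T))) (.s))) (.pow (.P) 2)) (.mul (.c (-2)) (.t))),
    .c 0,
    .mul (.c (-1)) (.mul (.mul (.mul (.mul (.c 2) (.a)) (.add (.c 5) (.T))) (.pow (.P) 3)) (.mul (.c (-2)) (.t))),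
    .c 0⟩

/-- free value column 69 -/
def vf69 : VFz := ⟨⟨4, 0, 2, 1, 1⟩, [-416429941388, 4283931522696, -7899145124580, -1812835786400, 16026140142600, -14021897688000, 3843889949040],
    .mul (.c (-1)) (.mul (.mul (.add (.mul (.sub (.c (-4)) (.mul (.c 2) (.T))) (.P)) (.mul (.mul (.mul (.c 8) (.a)) (.add (.c 5) (.T))) (.s))) (.pow (.P) 2)) (.mul (.mul (.c (-2)) (.t)) (.d))),
    .c 0,
    .mul (.c (-1)) (.mul (.mul (.mul (.mul (.c 2) (.a)) (.add (.c 5) (.T))) (.pow (.P) 3)) (.mul (.mul (.c (-2)) (.t)) (.d))),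
    .c 0⟩

/-- free value column 70 -/
def vf70 : VFz := ⟨⟨4, 0, 2, 2, 0⟩, [48544336878, -1061318150496, 3168158153400, -3563650130520, 1525663962990, -12318354648, -106653647478],
    .mul (.c (-1)) (.mul (.mul (.add (.mul (.sub (.c (-4)) (.mul (.c 2) (.T))) (.P)) (.mul (.mul (.mul (.c 8) (.a)) (.add (.c 5) (.T))) (.s))) (.pow (.P) 2)) (.add (.mul (.c 2) (.pow (.u) 2)) (.mul (.c (-4)) (.pow (.t) 2)))),
    .c 0,
    .mul (.c (-1)) (.mul (.mul (.mul (.mul (.c 2) (.a)) (.add (.c 5) (.T))) (.pow (.P) 3)) (.add (.mul (.c 2) (.pow (.u) 2)) (.mul (.c (-4)) (.pow (.t) 2)))),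
    .c 0⟩

/-- free value column 71 -/
def vf71 : VFz := ⟨⟨4, 0, 3, 0, 0⟩, [-413849499228, 5610827015196, -23656507772112, 42460236024460, -35936210341120, 13445284702524, -1436034427696, -76617512628],
    .mul (.c (-1)) (.mul (.mul (.add (.mul (.sub (.c (-4)) (.mul (.c 2) (.T))) (.P)) (.mul (.mul (.mul (.c 8) (.a)) (.add (.c 5) (.T))) (.s))) (.pow (.P) 2)) (.mul (.c 6) (.t))),
    .c 0,
    .mul (.c (-1)) (.mul (.mul (.mul (.mul (.c 2) (.a)) (.add (.c 5) (.T))) (.pow (.P) 3)) (.mul (.c 6) (.t))),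
    .c 0⟩

/-- free value column 72 -/
def vf72 : VFz := ⟨⟨4, 0, 3, 0, 1⟩, [157526811372, 1376431946616, -8997698360220, 20818969815840, -24163014611880, 14087595579456, -3275070495824],
    .mul (.c (-1)) (.mul (.mul (.add (.mul (.sub (.c (-4)) (.mul (.c 2) (.T))) (.P)) (.mul (.mul (.mul (.c 8) (.a)) (.add (.c 5) (.T))) (.s))) (.pow (.P) 2)) (.mul (.mul (.c 6) (.t)) (.d))),
    .c 0,
    .mul (.c (-1)) (.mul (.mul (.mul (.mul (.c 2) (.a)) (.add (.c 5) (.T))) (.pow (.P) 3)) (.mul (.mul (.c 6) (.t)) (.d))),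
    .c 0⟩

/-- free value column 73 -/
def vf73 : VFz := ⟨⟨4, 0, 3, 1, 0⟩, [64725782504, -1415090867328, 4224210871200, -4751533507360, 2034218617320, -16424472864, -142204863304],
    .mul (.c (-1)) (.mul (.mul (.add (.mul (.sub (.c (-4)) (.mul (.c 2) (.T))) (.P)) (.mul (.mul (.mul (.c 8) (.a)) (.add (.c 5) (.T))) (.s))) (.pow (.P) 2)) (.mul (.c (-2)) (.pow (.u) 2))),
    .c 0,
    .mul (.c (-1)) (.mul (.mul (.mul (.mul (.c 2) (.a)) (.add (.c 5) (.T))) (.pow (.P) 3)) (.mul (.c (-2)) (.pow (.u) 2))),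
    .c 0⟩

/-- free value column 74 -/
def vf74 : VFz := ⟨⟨4, 0, 4, 0, 0⟩, [16181445626, -353772716832, 1056052717800, -1187883376840, 508554654330, -4106118216, -35551215826],
    .mul (.c (-1)) (.mul (.mul (.add (.mul (.sub (.c (-4)) (.mul (.c 2) (.T))) (.P)) (.mul (.mul (.mul (.c 8) (.a)) (.add (.c 5) (.T))) (.s))) (.pow (.P) 2)) (.add (.mul (.c 2) (.pow (.u) 2)) (.mul (.c 12) (.pow (.t) 2)))),
    .c 0,
    .mul (.c (-1)) (.mul (.mul (.mul (.mul (.c 2) (.a)) (.add (.c 5) (.T))) (.pow (.P) 3)) (.add (.mul (.c 2) (.pow (.u) 2)) (.mul (.c 12) (.pow (.t) 2)))),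
    .c 0⟩

/-- free value column 75 -/
def vf75 : VFz := ⟨⟨4, 1, 0, 0, 0⟩, [3826267540832, -20576134685984, 46438846113312, -56831535272800, 40564647066400, -16816124186976, 3742274394752, -348240969536],
    .c 0,
    .c 0,
    .c 0,
    .c 0⟩

/-- free value column 76 -/
def vf76 : VFz := ⟨⟨4, 1, 0, 0, 1⟩, [-3826267540832, 20576134685984, -46438846113312, 56831535272800, -40564647066400, 16816124186976, -3742274394752, 348240969536],
    .c 0,
    .c 0,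
    .c 0,
    .c 0⟩

/-- free value column 77 -/
def vf77 : VFz := ⟨⟨4, 1, 1, 0, 0⟩, [3075750699392, -13757676320960, 23624901285888, -18071236537920, 3657818363520, 2997556956864, -1791813578272, 264699131488],
    .c 0,
    .c 0,
    .c 0,
    .c 0⟩

/-- free value column 78 -/
def vf78 : VFz := ⟨⟨4, 1, 1, 0, 1⟩, [750516841440, -6818458365024, 22813944827424, -38760298734880, 36906828702880, -19813681143840, 5534087973024, -612940101024],
    .c 0,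
    .c 0,
    .c 0,
    .c 0⟩

/-- free value column 79 -/
def vf79 : VFz := ⟨⟨4, 1, 1, 1, 0⟩, [-474171430528, 6690831181152, -24785410898952, 34514366701200, -18191814953240, -486763066512, 2305314083656, 306470050512],
    .mul (.c (-1)) (.mul (.mul (.mul (.add (.mul (.sub (.c (-4)) (.mul (.c 2) (.T))) (.P)) (.mul (.mul (.mul (.c 8) (.a)) (.add (.c 5) (.T))) (.s))) (.w)) (.pow (.P) 2)) (.c (-2))),
    .c 0,
    .mul (.c (-1)) (.mul (.mul (.mul (.mul (.mul (.c 2) (.a)) (.add (.c 5) (.T))) (.w)) (.pow (.P) 3)) (.c (-2))),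
    .c 0⟩

/-- free value column 80 -/
def vf80 : VFz := ⟨⟨4, 1, 1, 1, 1⟩, [129451565008, -5014909490592, 13752479095920, -10014072903200, -5393131393080, 8844899396112, -2630683043840],
    .mul (.c (-1)) (.mul (.mul (.mul (.add (.mul (.sub (.c (-4)) (.mul (.c 2) (.T))) (.P)) (.mul (.mul (.mul (.c 8) (.a)) (.add (.c 5) (.T))) (.s))) (.w)) (.pow (.P) 2)) (.mul (.c (-2)) (.d))),
    .c 0,
    .mul (.c (-1)) (.mul (.mul (.mul (.mul (.mul (.c 2) (.a)) (.add (.c 5) (.T))) (.w)) (.pow (.P) 3)) (.mul (.c (-2)) (.d))),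
    .c 0⟩

/-- free value column 81 -/
def vf81 : VFz := ⟨⟨4, 1, 1, 1, 2⟩, [0, 14950328784, 790417272600, -2411462154400, 2497236367680, -978016489056, 86590479456],
    .mul (.c (-1)) (.mul (.mul (.mul (.add (.mul (.sub (.c (-4)) (.mul (.c 2) (.T))) (.P)) (.mul (.mul (.mul (.c 8) (.a)) (.add (.c 5) (.T))) (.s))) (.w)) (.pow (.P) 2)) (.mul (.c (-2)) (.pow (.d) 2))),
    .mul (.c (-1)) (.mul (.mul (.mul (.add (.mul (.sub (.c (-4)) (.mul (.c 2) (.T))) (.P)) (.mul (.mul (.mul (.c 8) (.a)) (.add (.c 5) (.T))) (.s))) (.w)) (.pow (.P) 2)) (.mul (.c 2) (.pow (.t) 2))),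
    .mul (.c (-1)) (.mul (.mul (.mul (.mul (.mul (.c 2) (.a)) (.add (.c 5) (.T))) (.w)) (.pow (.P) 3)) (.mul (.c (-2)) (.pow (.d) 2))),
    .mul (.c (-1)) (.mul (.mul (.mul (.mul (.mul (.c 2) (.a)) (.add (.c 5) (.T))) (.w)) (.pow (.P) 3)) (.mul (.c 2) (.pow (.t) 2)))⟩

/-- free value column 82 -/
def vf82 : VFz := ⟨⟨4, 1, 2, 0, 0⟩, [-535248540928, 5817891310752, -13344542868072, 18429141754320, -21857415483560, 18410109123696, -7097401644552, 306470050512],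
    .mul (.c (-1)) (.mul (.mul (.mul (.add (.mul (.sub (.c (-4)) (.mul (.c 2) (.T))) (.P)) (.mul (.mul (.mul (.c 8) (.a)) (.add (.c 5) (.T))) (.s))) (.w)) (.pow (.P) 2)) (.c 2)),
    .c 0,
    .mul (.c (-1)) (.mul (.mul (.mul (.mul (.mul (.c 2) (.a)) (.add (.c 5) (.T))) (.w)) (.pow (.P) 3)) (.c 2)),
    .c 0⟩

/-- free value column 83 -/
def vf83 : VFz := ⟨⟨4, 1, 2, 0, 1⟩, [129451565008, -705255293856, -17304701520, 653787491360, 3541060391640, -4998531331344, 1715501672800],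
    .mul (.c (-1)) (.mul (.mul (.mul (.add (.mul (.sub (.c (-4)) (.mul (.c 2) (.T))) (.P)) (.mul (.mul (.mul (.c 8) (.a)) (.add (.c 5) (.T))) (.s))) (.w)) (.pow (.P) 2)) (.mul (.c 2) (.d))),
    .c 0,
    .mul (.c (-1)) (.mul (.mul (.mul (.mul (.mul (.c 2) (.a)) (.add (.c 5) (.T))) (.w)) (.pow (.P) 3)) (.mul (.c 2) (.d))),
    .c 0⟩

/-- free value column 84 -/
def vf84 : VFz := ⟨⟨4, 1, 2, 0, 2⟩, [0, 14950328784, 790417272600, -2411462154400, 2497236367680, -978016489056, 86590479456],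
    .mul (.c (-1)) (.mul (.mul (.mul (.add (.mul (.sub (.c (-4)) (.mul (.c 2) (.T))) (.P)) (.mul (.mul (.mul (.c 8) (.a)) (.add (.c 5) (.T))) (.s))) (.w)) (.pow (.P) 2)) (.mul (.c 2) (.pow (.d) 2))),
    .mul (.c (-1)) (.mul (.mul (.mul (.add (.mul (.sub (.c (-4)) (.mul (.c 2) (.T))) (.P)) (.mul (.mul (.mul (.c 8) (.a)) (.add (.c 5) (.T))) (.s))) (.w)) (.pow (.P) 2)) (.mul (.c 2) (.pow (.t) 2))),
    .mul (.c (-1)) (.mul (.mul (.mul (.mul (.mul (.c 2) (.a)) (.add (.c 5) (.T))) (.w)) (.pow (.P) 3)) (.mul (.c 2) (.pow (.d) 2))),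
    .mul (.c (-1)) (.mul (.mul (.mul (.mul (.mul (.c 2) (.a)) (.add (.c 5) (.T))) (.w)) (.pow (.P) 3)) (.mul (.c 2) (.pow (.t) 2)))⟩

/-- free value column 85 -/
def vf85 : VFz := ⟨⟨4, 1, 2, 1, 0⟩, [-194177347512, 3916323788496, -5886866702640, -7745256400400, 22044014427660, -15485085680808, 3386749735444],
    .mul (.c (-1)) (.mul (.mul (.mul (.add (.mul (.sub (.c (-4)) (.mul (.c 2) (.T))) (.P)) (.mul (.mul (.mul (.c 8) (.a)) (.add (.c 5) (.T))) (.s))) (.w)) (.pow (.P) 2)) (.mul (.c (-2)) (.t))),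
    .c 0,
    .mul (.c (-1)) (.mul (.mul (.mul (.mul (.mul (.c 2) (.a)) (.add (.c 5) (.T))) (.w)) (.pow (.P) 3)) (.mul (.c (-2)) (.t))),
    .c 0⟩

/-- free value column 86 -/
def vf86 : VFz := ⟨⟨4, 1, 2, 1, 1⟩, [0, 190555637400, -3058515324660, 6970983512000, -4186992440940, -1630295679264, 1718453797976],
    .mul (.c (-1)) (.mul (.mul (.mul (.add (.mul (.sub (.c (-4)) (.mul (.c 2) (.T))) (.P)) (.mul (.mul (.mul (.c 8) (.a)) (.add (.c 5) (.T))) (.s))) (.w)) (.pow (.P) 2)) (.mul (.mul (.c (-2)) (.t)) (.d))),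
    .c 0,
    .mul (.c (-1)) (.mul (.mul (.mul (.mul (.mul (.c 2) (.a)) (.add (.c 5) (.T))) (.w)) (.pow (.P) 3)) (.mul (.mul (.c (-2)) (.t)) (.d))),
    .c 0⟩

/-- free value column 87 -/
def vf87 : VFz := ⟨⟨4, 1, 2, 2, 0⟩, [0, 11212746588, 592812954450, -1808596615800, 1872927275760, -733512366792, 64942859592],
    .mul (.c (-1)) (.mul (.mul (.mul (.add (.mul (.sub (.c (-4)) (.mul (.c 2) (.T))) (.P)) (.mul (.mul (.mul (.c 8) (.a)) (.add (.c 5) (.T))) (.s))) (.w)) (.pow (.P) 2)) (.add (.mul (.c 2) (.pow (.u) 2)) (.mul (.c (-4)) (.pow (.t) 2)))),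
    .c 0,
    .mul (.c (-1)) (.mul (.mul (.mul (.mul (.mul (.c 2) (.a)) (.add (.c 5) (.T))) (.w)) (.pow (.P) 3)) (.add (.mul (.c 2) (.pow (.u) 2)) (.mul (.c (-4)) (.pow (.t) 2)))),
    .c 0⟩

/-- free value column 88 -/
def vf88 : VFz := ⟨⟨4, 1, 3, 0, 0⟩, [-64725782504, 1803840995952, -7848307691760, 17105541812240, -20191943426220, 11638717616040, -2471568364404],
    .mul (.c (-1)) (.mul (.mul (.mul (.add (.mul (.sub (.c (-4)) (.mul (.c 2) (.T))) (.P)) (.mul (.mul (.mul (.c 8) (.a)) (.add (.c 5) (.T))) (.s))) (.w)) (.pow (.P) 2)) (.mul (.c 6) (.t))),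
    .c 0,
    .mul (.c (-1)) (.mul (.mul (.mul (.mul (.mul (.c 2) (.a)) (.add (.c 5) (.T))) (.w)) (.pow (.P) 3)) (.mul (.c 6) (.t))),
    .c 0⟩

/-- free value column 89 -/
def vf89 : VFz := ⟨⟨4, 1, 3, 0, 1⟩, [0, -250356952536, -103153765740, 2674865105600, -5801953029780, 5542361635488, -2064815715800],
    .mul (.c (-1)) (.mul (.mul (.mul (.add (.mul (.sub (.c (-4)) (.mul (.c 2) (.T))) (.P)) (.mul (.mul (.mul (.c 8) (.a)) (.add (.c 5) (.T))) (.s))) (.w)) (.pow (.P) 2)) (.mul (.mul (.c 6) (.t)) (.d))),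
    .c 0,
    .mul (.c (-1)) (.mul (.mul (.mul (.mul (.mul (.c 2) (.a)) (.add (.c 5) (.T))) (.w)) (.pow (.P) 3)) (.mul (.mul (.c 6) (.t)) (.d))),
    .c 0⟩

/-- free value column 90 -/
def vf90 : VFz := ⟨⟨4, 1, 3, 1, 0⟩, [0, 14950328784, 790417272600, -2411462154400, 2497236367680, -978016489056, 86590479456],
    .mul (.c (-1)) (.mul (.mul (.mul (.add (.mul (.sub (.c (-4)) (.mul (.c 2) (.T))) (.P)) (.mul (.mul (.mul (.c 8) (.a)) (.add (.c 5) (.T))) (.s))) (.w)) (.pow (.P) 2)) (.mul (.c (-2)) (.pow (.u) 2))),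
    .c 0,
    .mul (.c (-1)) (.mul (.mul (.mul (.mul (.mul (.c 2) (.a)) (.add (.c 5) (.T))) (.w)) (.pow (.P) 3)) (.mul (.c (-2)) (.pow (.u) 2))),
    .c 0⟩

/-- free value column 91 -/
def vf91 : VFz := ⟨⟨4, 1, 4, 0, 0⟩, [0, 3737582196, 197604318150, -602865538600, 624309091920, -244504122264, 21647619864],
    .mul (.c (-1)) (.mul (.mul (.mul (.add (.mul (.sub (.c (-4)) (.mul (.c 2) (.T))) (.P)) (.mul (.mul (.mul (.c 8) (.a)) (.add (.c 5) (.T))) (.s))) (.w)) (.pow (.P) 2)) (.add (.mul (.c 2) (.pow (.u) 2)) (.mul (.c 12) (.pow (.t) 2)))),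
    .c 0,
    .mul (.c (-1)) (.mul (.mul (.mul (.mul (.mul (.c 2) (.a)) (.add (.c 5) (.T))) (.w)) (.pow (.P) 3)) (.add (.mul (.c 2) (.pow (.u) 2)) (.mul (.c 12) (.pow (.t) 2)))),
    .c 0⟩

/-- free value column 92 -/
def vf92 : VFz := ⟨⟨4, 2, 0, 0, 0⟩, [-1913133770416, 10288067342992, -23219423056656, 28415767636400, -20282323533200, 8408062093488, -1871137197376, 174120484768],
    .c 0,
    .c 0,
    .c 0,
    .c 0⟩

/-- free value column 93 -/
def vf93 : VFz := ⟨⟨4, 2, 1, 0, 0⟩, [375258420720, -3409229182512, 11406972413712, -19380149367440, 18453414351440, -9906840571920, 2767043986512, -306470050512],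
    .c 0,
    .c 0,
    .c 0,
    .c 0⟩

/-- free value column 94 -/
def vf94 : VFz := ⟨⟨4, 2, 1, 1, 0⟩, [64725782504, -1239660924720, 1326313639680, 5431110354720, -14772226849560, 13189122543360, -4369878104168],
    .mul (.c (-1)) (.mul (.mul (.mul (.add (.mul (.sub (.c (-4)) (.mul (.c 2) (.T))) (.P)) (.mul (.mul (.mul (.c 8) (.a)) (.add (.c 5) (.T))) (.s))) (.pow (.w) 2)) (.pow (.P) 2)) (.c (-2))),
    .c 0,
    .mul (.c (-1)) (.mul (.mul (.mul (.mul (.mul (.c 2) (.a)) (.add (.c 5) (.T))) (.pow (.w) 2)) (.pow (.P) 3)) (.c (-2))),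
    .c 0⟩

/-- free value column 95 -/
def vf95 : VFz := ⟨⟨4, 2, 1, 1, 1⟩, [0, 121231821888, 2949177644640, -8884439312640, 8848050024960, -2745739494384, -315311407432],
    .mul (.c (-1)) (.mul (.mul (.mul (.add (.mul (.sub (.c (-4)) (.mul (.c 2) (.T))) (.P)) (.mul (.mul (.mul (.c 8) (.a)) (.add (.c 5) (.T))) (.s))) (.pow (.w) 2)) (.pow (.P) 2)) (.mul (.c (-2)) (.d))),
    .c 0,
    .mul (.c (-1)) (.mul (.mul (.mul (.mul (.mul (.c 2) (.a)) (.add (.c 5) (.T))) (.pow (.w) 2)) (.pow (.P) 3)) (.mul (.c (-2)) (.d))),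
    .c 0⟩

/-- free value column 96 -/
def vf96 : VFz := ⟨⟨4, 2, 1, 1, 2⟩, [0, -15866747328, -51353238840, -140099353920, 776394809880, -872580685440, 303132949152],
    .mul (.c (-1)) (.mul (.mul (.mul (.add (.mul (.sub (.c (-4)) (.mul (.c 2) (.T))) (.P)) (.mul (.mul (.mul (.c 8) (.a)) (.add (.c 5) (.T))) (.s))) (.pow (.w) 2)) (.pow (.P) 2)) (.mul (.c (-2)) (.pow (.d) 2))),
    .mul (.c (-1)) (.mul (.mul (.mul (.add (.mul (.sub (.c (-4)) (.mul (.c 2) (.T))) (.P)) (.mul (.mul (.mul (.c 8) (.a)) (.add (.c 5) (.T))) (.s))) (.pow (.w) 2)) (.pow (.P) 2)) (.mul (.c 2) (.pow (.t) 2))),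
    .mul (.c (-1)) (.mul (.mul (.mul (.mul (.mul (.c 2) (.a)) (.add (.c 5) (.T))) (.pow (.w) 2)) (.pow (.P) 3)) (.mul (.c (-2)) (.pow (.d) 2))),
    .mul (.c (-1)) (.mul (.mul (.mul (.mul (.mul (.c 2) (.a)) (.add (.c 5) (.T))) (.pow (.w) 2)) (.pow (.P) 3)) (.mul (.c 2) (.pow (.t) 2)))⟩

/-- free value column 97 -/
def vf97 : VFz := ⟨⟨4, 2, 2, 0, 0⟩, [64725782504, -1682055619728, 3857732534640, -5568527459680, 10404508233240, -11055066903744, 4345372358040],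
    .mul (.c (-1)) (.mul (.mul (.mul (.add (.mul (.sub (.c (-4)) (.mul (.c 2) (.T))) (.P)) (.mul (.mul (.mul (.c 8) (.a)) (.add (.c 5) (.T))) (.s))) (.pow (.w) 2)) (.pow (.P) 2)) (.c 2)),
    .c 0,
    .mul (.c (-1)) (.mul (.mul (.mul (.mul (.mul (.c 2) (.a)) (.add (.c 5) (.T))) (.pow (.w) 2)) (.pow (.P) 3)) (.c 2)),
    .c 0⟩

/-- free value column 98 -/
def vf98 : VFz := ⟨⟨4, 2, 2, 0, 1⟩, [0, 2036482560, 417904401120, -201011889280, -1964683793760, 2323996279920, -550858471352],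
    .mul (.c (-1)) (.mul (.mul (.mul (.add (.mul (.sub (.c (-4)) (.mul (.c 2) (.T))) (.P)) (.mul (.mul (.mul (.c 8) (.a)) (.add (.c 5) (.T))) (.s))) (.pow (.w) 2)) (.pow (.P) 2)) (.mul (.c 2) (.d))),
    .c 0,
    .mul (.c (-1)) (.mul (.mul (.mul (.mul (.mul (.c 2) (.a)) (.add (.c 5) (.T))) (.pow (.w) 2)) (.pow (.P) 3)) (.mul (.c 2) (.d))),
    .c 0⟩

/-- free value column 99 -/
def vf99 : VFz := ⟨⟨4, 2, 2, 0, 2⟩, [0, -15866747328, -51353238840, -140099353920, 776394809880, -872580685440, 303132949152],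
    .mul (.c (-1)) (.mul (.mul (.mul (.add (.mul (.sub (.c (-4)) (.mul (.c 2) (.T))) (.P)) (.mul (.mul (.mul (.c 8) (.a)) (.add (.c 5) (.T))) (.s))) (.pow (.w) 2)) (.pow (.P) 2)) (.mul (.c 2) (.pow (.d) 2))),
    .mul (.c (-1)) (.mul (.mul (.mul (.add (.mul (.sub (.c (-4)) (.mul (.c 2) (.T))) (.P)) (.mul (.mul (.mul (.c 8) (.a)) (.add (.c 5) (.T))) (.s))) (.pow (.w) 2)) (.pow (.P) 2)) (.mul (.c 2) (.pow (.t) 2))),
    .mul (.c (-1)) (.mul (.mul (.mul (.mul (.mul (.c 2) (.a)) (.add (.c 5) (.T))) (.pow (.w) 2)) (.pow (.P) 3)) (.mul (.c 2) (.pow (.d) 2))),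
    .mul (.c (-1)) (.mul (.mul (.mul (.mul (.mul (.c 2) (.a)) (.add (.c 5) (.T))) (.pow (.w) 2)) (.pow (.P) 3)) (.mul (.c 2) (.pow (.t) 2)))⟩

/-- free value column 100 -/
def vf100 : VFz := ⟨⟨4, 2, 2, 1, 0⟩, [0, 8193353832, -3276847587540, 7304115257280, -2712271116360, -4147010320776, 2815772037204],
    .mul (.c (-1)) (.mul (.mul (.mul (.add (.mul (.sub (.c (-4)) (.mul (.c 2) (.T))) (.P)) (.mul (.mul (.mul (.c 8) (.a)) (.add (.c 5) (.T))) (.s))) (.pow (.w) 2)) (.pow (.P) 2)) (.mul (.c (-2)) (.t))),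
    .c 0,
    .mul (.c (-1)) (.mul (.mul (.mul (.mul (.mul (.c 2) (.a)) (.add (.c 5) (.T))) (.pow (.w) 2)) (.pow (.P) 3)) (.mul (.c (-2)) (.t))),
    .c 0⟩

/-- free value column 101 -/
def vf101 : VFz := ⟨⟨4, 2, 2, 1, 1⟩, [0, -5361697440, 190140197700, 1399687384560, -5300356763700, 5923857186432, -2199670565596],
    .mul (.c (-1)) (.mul (.mul (.mul (.add (.mul (.sub (.c (-4)) (.mul (.c 2) (.T))) (.P)) (.mul (.mul (.mul (.c 8) (.a)) (.add (.c 5) (.T))) (.s))) (.pow (.w) 2)) (.pow (.P) 2)) (.mul (.mul (.c (-2)) (.t)) (.d))),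
    .c 0,
    .mul (.c (-1)) (.mul (.mul (.mul (.mul (.mul (.c 2) (.a)) (.add (.c 5) (.T))) (.pow (.w) 2)) (.pow (.P) 3)) (.mul (.mul (.c (-2)) (.t)) (.d))),
    .c 0⟩

/-- free value column 102 -/
def vf102 : VFz := ⟨⟨4, 2, 2, 2, 0⟩, [0, -11900060496, -38514929130, -105074515440, 582296107410, -654435514080, 227349711864],
    .mul (.c (-1)) (.mul (.mul (.mul (.add (.mul (.sub (.c (-4)) (.mul (.c 2) (.T))) (.P)) (.mul (.mul (.mul (.c 8) (.a)) (.add (.c 5) (.T))) (.s))) (.pow (.w) 2)) (.pow (.P) 2)) (.add (.mul (.c 2) (.pow (.u) 2)) (.mul (.c (-4)) (.pow (.t) 2)))),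
    .c 0,
    .mul (.c (-1)) (.mul (.mul (.mul (.mul (.mul (.c 2) (.a)) (.add (.c 5) (.T))) (.pow (.w) 2)) (.pow (.P) 3)) (.add (.mul (.c 2) (.pow (.u) 2)) (.mul (.c (-4)) (.pow (.t) 2)))),
    .c 0⟩

/-- free value column 103 -/
def vf103 : VFz := ⟨⟨4, 2, 3, 0, 0⟩, [0, -131461658280, -90234458220, 1781335944640, -4171095114840, 4568753535240, -1949602158420],
    .mul (.c (-1)) (.mul (.mul (.mul (.add (.mul (.sub (.c (-4)) (.mul (.c 2) (.T))) (.P)) (.mul (.mul (.mul (.c 8) (.a)) (.add (.c 5) (.T))) (.s))) (.pow (.w) 2)) (.pow (.P) 2)) (.mul (.c 6) (.t))),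
    .c 0,
    .mul (.c (-1)) (.mul (.mul (.mul (.mul (.mul (.c 2) (.a)) (.add (.c 5) (.T))) (.pow (.w) 2)) (.pow (.P) 3)) (.mul (.c 6) (.t))),
    .c 0⟩

/-- free value column 104 -/
def vf104 : VFz := ⟨⟨4, 2, 3, 0, 1⟩, [0, 68828686752, 15272757660, -839289968880, 2194777524180, -2433534444672, 987138768988],
    .mul (.c (-1)) (.mul (.mul (.mul (.add (.mul (.sub (.c (-4)) (.mul (.c 2) (.T))) (.P)) (.mul (.mul (.mul (.c 8) (.a)) (.add (.c 5) (.T))) (.s))) (.pow (.w) 2)) (.pow (.P) 2)) (.mul (.mul (.c 6) (.t)) (.d))),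
    .c 0,
    .mul (.c (-1)) (.mul (.mul (.mul (.mul (.mul (.c 2) (.a)) (.add (.c 5) (.T))) (.pow (.w) 2)) (.pow (.P) 3)) (.mul (.mul (.c 6) (.t)) (.d))),
    .c 0⟩

/-- free value column 105 -/
def vf105 : VFz := ⟨⟨4, 2, 3, 1, 0⟩, [0, -15866747328, -51353238840, -140099353920, 776394809880, -872580685440, 303132949152],
    .mul (.c (-1)) (.mul (.mul (.mul (.add (.mul (.sub (.c (-4)) (.mul (.c 2) (.T))) (.P)) (.mul (.mul (.mul (.c 8) (.a)) (.add (.c 5) (.T))) (.s))) (.pow (.w) 2)) (.pow (.P) 2)) (.mul (.c (-2)) (.pow (.u) 2))),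
    .c 0,
    .mul (.c (-1)) (.mul (.mul (.mul (.mul (.mul (.c 2) (.a)) (.add (.c 5) (.T))) (.pow (.w) 2)) (.pow (.P) 3)) (.mul (.c (-2)) (.pow (.u) 2))),
    .c 0⟩

/-- free value column 106 -/
def vf106 : VFz := ⟨⟨4, 2, 4, 0, 0⟩, [0, -3966686832, -12838309710, -35024838480, 194098702470, -218145171360, 75783237288],
    .mul (.c (-1)) (.mul (.mul (.mul (.add (.mul (.sub (.c (-4)) (.mul (.c 2) (.T))) (.P)) (.mul (.mul (.mul (.c 8) (.a)) (.add (.c 5) (.T))) (.s))) (.pow (.w) 2)) (.pow (.P) 2)) (.add (.mul (.c 2) (.pow (.u) 2)) (.mul (.c 12) (.pow (.t) 2)))),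
    .c 0,
    .mul (.c (-1)) (.mul (.mul (.mul (.mul (.mul (.c 2) (.a)) (.add (.c 5) (.T))) (.pow (.w) 2)) (.pow (.P) 3)) (.add (.mul (.c 2) (.pow (.u) 2)) (.mul (.c 12) (.pow (.t) 2)))),
    .c 0⟩

/-- free value column 107 -/
def vf107 : VFz := ⟨⟨4, 3, 1, 1, 0⟩, [0, 36255432624, 1148713183560, -3292262037120, 3810355518960, -2370984115776, 658396518736],
    .mul (.c (-1)) (.mul (.mul (.mul (.add (.mul (.sub (.c (-4)) (.mul (.c 2) (.T))) (.P)) (.mul (.mul (.mul (.c 8) (.a)) (.add (.c 5) (.T))) (.s))) (.pow (.w) 3)) (.pow (.P) 2)) (.c (-2))),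
    .c 0,
    .mul (.c (-1)) (.mul (.mul (.mul (.mul (.mul (.c 2) (.a)) (.add (.c 5) (.T))) (.pow (.w) 3)) (.pow (.P) 3)) (.c (-2))),
    .c 0⟩

/-- free value column 108 -/
def vf108 : VFz := ⟨⟨4, 3, 1, 1, 1⟩, [0, -60056182560, -43210834440, -1107582928320, 3854072371800, -4162436841408, 1506599868896],
    .mul (.c (-1)) (.mul (.mul (.mul (.add (.mul (.sub (.c (-4)) (.mul (.c 2) (.T))) (.P)) (.mul (.mul (.mul (.c 8) (.a)) (.add (.c 5) (.T))) (.s))) (.pow (.w) 3)) (.pow (.P) 2)) (.mul (.c (-2)) (.d))),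
    .c 0,
    .mul (.c (-1)) (.mul (.mul (.mul (.mul (.mul (.c 2) (.a)) (.add (.c 5) (.T))) (.pow (.w) 3)) (.pow (.P) 3)) (.mul (.c (-2)) (.d))),
    .c 0⟩

/-- free value column 109 -/
def vf109 : VFz := ⟨⟨4, 3, 1, 1, 2⟩, [0, 1816895712, 1432567680, 77096655200, -230920378320, 226502771232, -75627233608],
    .mul (.c (-1)) (.mul (.mul (.mul (.add (.mul (.sub (.c (-4)) (.mul (.c 2) (.T))) (.P)) (.mul (.mul (.mul (.c 8) (.a)) (.add (.c 5) (.T))) (.s))) (.pow (.w) 3)) (.pow (.P) 2)) (.mul (.c (-2)) (.pow (.d) 2))),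
    .mul (.c (-1)) (.mul (.mul (.mul (.add (.mul (.sub (.c (-4)) (.mul (.c 2) (.T))) (.P)) (.mul (.mul (.mul (.c 8) (.a)) (.add (.c 5) (.T))) (.s))) (.pow (.w) 3)) (.pow (.P) 2)) (.mul (.c 2) (.pow (.t) 2))),
    .mul (.c (-1)) (.mul (.mul (.mul (.mul (.mul (.c 2) (.a)) (.add (.c 5) (.T))) (.pow (.w) 3)) (.pow (.P) 3)) (.mul (.c (-2)) (.pow (.d) 2))),
    .mul (.c (-1)) (.mul (.mul (.mul (.mul (.mul (.c 2) (.a)) (.add (.c 5) (.T))) (.pow (.w) 3)) (.pow (.P) 3)) (.mul (.c 2) (.pow (.t) 2)))⟩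

/-- free value column 110 -/
def vf110 : VFz := ⟨⟨4, 3, 2, 0, 0⟩, [0, 60746005680, 640399452360, -816071545600, -2383302779760, 4358279421888, -1849001823648],
    .mul (.c (-1)) (.mul (.mul (.mul (.add (.mul (.sub (.c (-4)) (.mul (.c 2) (.T))) (.P)) (.mul (.mul (.mul (.c 8) (.a)) (.add (.c 5) (.T))) (.s))) (.pow (.w) 3)) (.pow (.P) 2)) (.c 2)),
    .c 0,
    .mul (.c (-1)) (.mul (.mul (.mul (.mul (.mul (.c 2) (.a)) (.add (.c 5) (.T))) (.pow (.w) 3)) (.pow (.P) 3)) (.c 2)),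
    .c 0⟩

/-- free value column 111 -/
def vf111 : VFz := ⟨⟨4, 3, 2, 0, 1⟩, [0, -10678389600, -167932391640, 238798891840, 175188381000, -233896985280, 8440862144],
    .mul (.c (-1)) (.mul (.mul (.mul (.add (.mul (.sub (.c (-4)) (.mul (.c 2) (.T))) (.P)) (.mul (.mul (.mul (.c 8) (.a)) (.add (.c 5) (.T))) (.s))) (.pow (.w) 3)) (.pow (.P) 2)) (.mul (.c 2) (.d))),
    .c 0,
    .mul (.c (-1)) (.mul (.mul (.mul (.mul (.mul (.c 2) (.a)) (.add (.c 5) (.T))) (.pow (.w) 3)) (.pow (.P) 3)) (.mul (.c 2) (.d))),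
    .c 0⟩

/-- free value column 112 -/
def vf112 : VFz := ⟨⟨4, 3, 2, 0, 2⟩, [0, 1816895712, 1432567680, 77096655200, -230920378320, 226502771232, -75627233608],
    .mul (.c (-1)) (.mul (.mul (.mul (.add (.mul (.sub (.c (-4)) (.mul (.c 2) (.T))) (.P)) (.mul (.mul (.mul (.c 8) (.a)) (.add (.c 5) (.T))) (.s))) (.pow (.w) 3)) (.pow (.P) 2)) (.mul (.c 2) (.pow (.d) 2))),
    .mul (.c (-1)) (.mul (.mul (.mul (.add (.mul (.sub (.c (-4)) (.mul (.c 2) (.T))) (.P)) (.mul (.mul (.mul (.c 8) (.a)) (.add (.c 5) (.T))) (.s))) (.pow (.w) 3)) (.pow (.P) 2)) (.mul (.c 2) (.pow (.t) 2))),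
    .mul (.c (-1)) (.mul (.mul (.mul (.mul (.mul (.c 2) (.a)) (.add (.c 5) (.T))) (.pow (.w) 3)) (.pow (.P) 3)) (.mul (.c 2) (.pow (.d) 2))),
    .mul (.c (-1)) (.mul (.mul (.mul (.mul (.mul (.c 2) (.a)) (.add (.c 5) (.T))) (.pow (.w) 3)) (.pow (.P) 3)) (.mul (.c 2) (.pow (.t) 2)))⟩

/-- free value column 113 -/
def vf113 : VFz := ⟨⟨4, 3, 2, 1, 0⟩, [0, 19746865032, 281717343180, 958799604880, -4611780323460, 5432990287824, -2068723082604],
    .mul (.c (-1)) (.mul (.mul (.mul (.add (.mul (.sub (.c (-4)) (.mul (.c 2) (.T))) (.P)) (.mul (.mul (.mul (.c 8) (.a)) (.add (.c 5) (.T))) (.s))) (.pow (.w) 3)) (.pow (.P) 2)) (.mul (.c (-2)) (.t))),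
    .c 0,
    .mul (.c (-1)) (.mul (.mul (.mul (.mul (.mul (.c 2) (.a)) (.add (.c 5) (.T))) (.pow (.w) 3)) (.pow (.P) 3)) (.mul (.c (-2)) (.t))),
    .c 0⟩

/-- free value column 114 -/
def vf114 : VFz := ⟨⟨4, 3, 2, 1, 1⟩, [0, -9450094224, -12168349260, -249049141280, 795099696060, -766231476816, 243751251320],
    .mul (.c (-1)) (.mul (.mul (.mul (.add (.mul (.sub (.c (-4)) (.mul (.c 2) (.T))) (.P)) (.mul (.mul (.mul (.c 8) (.a)) (.add (.c 5) (.T))) (.s))) (.pow (.w) 3)) (.pow (.P) 2)) (.mul (.mul (.c (-2)) (.t)) (.d))),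
    .c 0,
    .mul (.c (-1)) (.mul (.mul (.mul (.mul (.mul (.c 2) (.a)) (.add (.c 5) (.T))) (.pow (.w) 3)) (.pow (.P) 3)) (.mul (.mul (.c (-2)) (.t)) (.d))),
    .c 0⟩

/-- free value column 115 -/
def vf115 : VFz := ⟨⟨4, 3, 2, 2, 0⟩, [0, 1362671784, 1074425760, 57822491400, -173190283740, 169877078424, -56720425206],
    .mul (.c (-1)) (.mul (.mul (.mul (.add (.mul (.sub (.c (-4)) (.mul (.c 2) (.T))) (.P)) (.mul (.mul (.mul (.c 8) (.a)) (.add (.c 5) (.T))) (.s))) (.pow (.w) 3)) (.pow (.P) 2)) (.add (.mul (.c 2) (.pow (.u) 2)) (.mul (.c (-4)) (.pow (.t) 2)))),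
    .c 0,
    .mul (.c (-1)) (.mul (.mul (.mul (.mul (.mul (.c 2) (.a)) (.add (.c 5) (.T))) (.pow (.w) 3)) (.pow (.P) 3)) (.add (.mul (.c 2) (.pow (.u) 2)) (.mul (.c (-4)) (.pow (.t) 2)))),
    .c 0⟩

/-- free value column 116 -/
def vf116 : VFz := ⟨⟨4, 3, 3, 0, 0⟩, [0, 50987707128, -70574117100, -90015568400, 582519570660, -1036656461136, 553682351564],
    .mul (.c (-1)) (.mul (.mul (.mul (.add (.mul (.sub (.c (-4)) (.mul (.c 2) (.T))) (.P)) (.mul (.mul (.mul (.c 8) (.a)) (.add (.c 5) (.T))) (.s))) (.pow (.w) 3)) (.pow (.P) 2)) (.mul (.c 6) (.t))),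
    .c 0,
    .mul (.c (-1)) (.mul (.mul (.mul (.mul (.mul (.c 2) (.a)) (.add (.c 5) (.T))) (.pow (.w) 3)) (.pow (.P) 3)) (.mul (.c 6) (.t))),
    .c 0⟩

/-- free value column 117 -/
def vf117 : VFz := ⟨⟨4, 3, 3, 0, 1⟩, [0, 2182511376, 6438078540, -59337479520, 128581817220, -139779608112, 58757683112],
    .mul (.c (-1)) (.mul (.mul (.mul (.add (.mul (.sub (.c (-4)) (.mul (.c 2) (.T))) (.P)) (.mul (.mul (.mul (.c 8) (.a)) (.add (.c 5) (.T))) (.s))) (.pow (.w) 3)) (.pow (.P) 2)) (.mul (.mul (.c 6) (.t)) (.d))),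
    .c 0,
    .mul (.c (-1)) (.mul (.mul (.mul (.mul (.mul (.c 2) (.a)) (.add (.c 5) (.T))) (.pow (.w) 3)) (.pow (.P) 3)) (.mul (.mul (.c 6) (.t)) (.d))),
    .c 0⟩

/-- free value column 118 -/
def vf118 : VFz := ⟨⟨4, 3, 3, 1, 0⟩, [0, 1816895712, 1432567680, 77096655200, -230920378320, 226502771232, -75627233608],
    .mul (.c (-1)) (.mul (.mul (.mul (.add (.mul (.sub (.c (-4)) (.mul (.c 2) (.T))) (.P)) (.mul (.mul (.mul (.c 8) (.a)) (.add (.c 5) (.T))) (.s))) (.pow (.w) 3)) (.pow (.P) 2)) (.mul (.c (-2)) (.pow (.u) 2))),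
    .c 0,
    .mul (.c (-1)) (.mul (.mul (.mul (.mul (.mul (.c 2) (.a)) (.add (.c 5) (.T))) (.pow (.w) 3)) (.pow (.P) 3)) (.mul (.c (-2)) (.pow (.u) 2))),
    .c 0⟩

/-- free value column 119 -/
def vf119 : VFz := ⟨⟨4, 3, 4, 0, 0⟩, [0, 454223928, 358141920, 19274163800, -57730094580, 56625692808, -18906808402],
    .mul (.c (-1)) (.mul (.mul (.mul (.add (.mul (.sub (.c (-4)) (.mul (.c 2) (.T))) (.P)) (.mul (.mul (.mul (.c 8) (.a)) (.add (.c 5) (.T))) (.s))) (.pow (.w) 3)) (.pow (.P) 2)) (.add (.mul (.c 2) (.pow (.u) 2)) (.mul (.c 12) (.pow (.t) 2)))),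
    .c 0,
    .mul (.c (-1)) (.mul (.mul (.mul (.mul (.mul (.c 2) (.a)) (.add (.c 5) (.T))) (.pow (.w) 3)) (.pow (.P) 3)) (.add (.mul (.c 2) (.pow (.u) 2)) (.mul (.c 12) (.pow (.t) 2)))),
    .c 0⟩

/-- free value column 120 -/
def vf120 : VFz := ⟨⟨4, 4, 1, 1, 0⟩, [0, -19500538752, -54218374200, -294292664320, 1238235566520, -1325586227904, 454387416368],
    .mul (.c (-1)) (.mul (.mul (.mul (.add (.mul (.sub (.c (-4)) (.mul (.c 2) (.T))) (.P)) (.mul (.mul (.mul (.c 8) (.a)) (.add (.c 5) (.T))) (.s))) (.pow (.w) 4)) (.pow (.P) 2)) (.c (-2))),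
    .c 0,
    .mul (.c (-1)) (.mul (.mul (.mul (.mul (.mul (.c 2) (.a)) (.add (.c 5) (.T))) (.pow (.w) 4)) (.pow (.P) 3)) (.c (-2))),
    .c 0⟩

/-- free value column 121 -/
def vf121 : VFz := ⟨⟨4, 4, 1, 1, 1⟩, [0, 3633791424, 2865135360, 154193310400, -461840756640, 453005542464, -151254467216],
    .mul (.c (-1)) (.mul (.mul (.mul (.add (.mul (.sub (.c (-4)) (.mul (.c 2) (.T))) (.P)) (.mul (.mul (.mul (.c 8) (.a)) (.add (.c 5) (.T))) (.s))) (.pow (.w) 4)) (.pow (.P) 2)) (.mul (.c (-2)) (.d))),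
    .c 0,
    .mul (.c (-1)) (.mul (.mul (.mul (.mul (.mul (.c 2) (.a)) (.add (.c 5) (.T))) (.pow (.w) 4)) (.pow (.P) 3)) (.mul (.c (-2)) (.d))),
    .c 0⟩

/-- free value column 122 -/
def vf122 : VFz := ⟨⟨4, 4, 2, 0, 0⟩, [0, -19500538752, -54218374200, -294292664320, 1238235566520, -1325586227904, 454387416368],
    .mul (.c (-1)) (.mul (.mul (.mul (.add (.mul (.sub (.c (-4)) (.mul (.c 2) (.T))) (.P)) (.mul (.mul (.mul (.c 8) (.a)) (.add (.c 5) (.T))) (.s))) (.pow (.w) 4)) (.pow (.P) 2)) (.c 2)),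
    .c 0,
    .mul (.c (-1)) (.mul (.mul (.mul (.mul (.mul (.c 2) (.a)) (.add (.c 5) (.T))) (.pow (.w) 4)) (.pow (.P) 3)) (.c 2)),
    .c 0⟩

/-- free value column 123 -/
def vf123 : VFz := ⟨⟨4, 4, 2, 0, 1⟩, [0, 3633791424, 2865135360, 154193310400, -461840756640, 453005542464, -151254467216],
    .mul (.c (-1)) (.mul (.mul (.mul (.add (.mul (.sub (.c (-4)) (.mul (.c 2) (.T))) (.P)) (.mul (.mul (.mul (.c 8) (.a)) (.add (.c 5) (.T))) (.s))) (.pow (.w) 4)) (.pow (.P) 2)) (.mul (.c 2) (.d))),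
    .c 0,
    .mul (.c (-1)) (.mul (.mul (.mul (.mul (.mul (.c 2) (.a)) (.add (.c 5) (.T))) (.pow (.w) 4)) (.pow (.P) 3)) (.mul (.c 2) (.d))),
    .c 0⟩

/-- free value column 124 -/
def vf124 : VFz := ⟨⟨4, 4, 2, 1, 0⟩, [0, -5450687136, -4297703040, -231289965600, 692761134960, -679508313696, 226881700824],
    .mul (.c (-1)) (.mul (.mul (.mul (.add (.mul (.sub (.c (-4)) (.mul (.c 2) (.T))) (.P)) (.mul (.mul (.mul (.c 8) (.a)) (.add (.c 5) (.T))) (.s))) (.pow (.w) 4)) (.pow (.P) 2)) (.mul (.c (-2)) (.t))),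
    .c 0,
    .mul (.c (-1)) (.mul (.mul (.mul (.mul (.mul (.c 2) (.a)) (.add (.c 5) (.T))) (.pow (.w) 4)) (.pow (.P) 3)) (.mul (.c (-2)) (.t))),
    .c 0⟩

/-- free value column 125 -/
def vf125 : VFz := ⟨⟨4, 4, 3, 0, 0⟩, [0, -1816895712, -1432567680, -77096655200, 230920378320, -226502771232, 75627233608],
    .mul (.c (-1)) (.mul (.mul (.mul (.add (.mul (.sub (.c (-4)) (.mul (.c 2) (.T))) (.P)) (.mul (.mul (.mul (.c 8) (.a)) (.add (.c 5) (.T))) (.s))) (.pow (.w) 4)) (.pow (.P) 2)) (.mul (.c 6) (.t))),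
    .c 0,
    .mul (.c (-1)) (.mul (.mul (.mul (.mul (.mul (.c 2) (.a)) (.add (.c 5) (.T))) (.pow (.w) 4)) (.pow (.P) 3)) (.mul (.c 6) (.t))),
    .c 0⟩

/-- free value column 126 -/
def vf126 : VFz := ⟨⟨4, 5, 1, 1, 0⟩, [0, 1816895712, 1432567680, 77096655200, -230920378320, 226502771232, -75627233608],
    .mul (.c (-1)) (.mul (.mul (.mul (.add (.mul (.sub (.c (-4)) (.mul (.c 2) (.T))) (.P)) (.mul (.mul (.mul (.c 8) (.a)) (.add (.c 5) (.T))) (.s))) (.pow (.w) 5)) (.pow (.P) 2)) (.c (-2))),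
    .c 0,
    .mul (.c (-1)) (.mul (.mul (.mul (.mul (.mul (.c 2) (.a)) (.add (.c 5) (.T))) (.pow (.w) 5)) (.pow (.P) 3)) (.c (-2))),
    .c 0⟩

/-- free value column 127 -/
def vf127 : VFz := ⟨⟨4, 5, 2, 0, 0⟩, [0, 1816895712, 1432567680, 77096655200, -230920378320, 226502771232, -75627233608],
    .mul (.c (-1)) (.mul (.mul (.mul (.add (.mul (.sub (.c (-4)) (.mul (.c 2) (.T))) (.P)) (.mul (.mul (.mul (.c 8) (.a)) (.add (.c 5) (.T))) (.s))) (.pow (.w) 5)) (.pow (.P) 2)) (.c 2)),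
    .c 0,
    .mul (.c (-1)) (.mul (.mul (.mul (.mul (.mul (.c 2) (.a)) (.add (.c 5) (.T))) (.pow (.w) 5)) (.pow (.P) 3)) (.c 2)),
    .c 0⟩

/-- free value column 128 -/
def vf128 : VFz := ⟨⟨5, 0, 0, 0, 0⟩, [1060718997488, -6219418096960, 15606298955936, -21764462282624, 18343713501280, -9523478076416, 2965057897440, -499843194432, 31412298288],
    .c 0,
    .c 0,
    .c 0,
    .c 0⟩

/-- free value column 129 -/
def vf129 : VFz := ⟨⟨5, 0, 0, 0, 1⟩, [-2121437994976, 12438836193920, -31212597911872, 43528924565248, -36687427002560, 19046956152832, -5930115794880, 999686388864, -62824596576],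
    .c 0,
    .c 0,
    .c 0,
    .c 0⟩

/-- free value column 130 -/
def vf130 : VFz := ⟨⟨5, 0, 0, 0, 2⟩, [1060718997488, -6219418096960, 15606298955936, -21764462282624, 18343713501280, -9523478076416, 2965057897440, -499843194432, 31412298288],
    .c 0,
    .mul (.c (-1)) (.mul (.mul (.add (.mul (.sub (.c (-4)) (.mul (.c 2) (.T))) (.P)) (.mul (.mul (.mul (.c 10) (.a)) (.add (.c 5) (.T))) (.s))) (.P)) (.c 2)),
    .c 0,
    .mul (.c (-1)) (.mul (.mul (.mul (.mul (.c 2) (.a)) (.add (.c 5) (.T))) (.pow (.P) 2)) (.c 2))⟩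

/-- free value column 131 -/
def vf131 : VFz := ⟨⟨5, 0, 1, 0, 0⟩, [1797323781456, -9583908563904, 21248795874960, -25064279027872, 16630579095680, -5966403172384, 962047060032, -9811400352, -14343647616],
    .c 0,
    .c 0,
    .c 0,
    .c 0⟩

/-- free value column 132 -/
def vf132 : VFz := ⟨⟨5, 0, 1, 0, 1⟩, [-1473209567936, 6728980933888, -11284993838048, 6599633490496, 3426268811200, -7114149808064, 4006021674816, -980063588160, 91511891808],
    .c 0,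
    .c 0,
    .c 0,
    .c 0⟩

/-- free value column 133 -/
def vf133 : VFz := ⟨⟨5, 0, 1, 0, 2⟩, [-324114213520, 2854927630016, -9963802036912, 18464645537376, -20056847906880, 13080552980448, -4968068734848, 989874988512, -77168244192],
    .c 0,
    .mul (.c (-1)) (.mul (.mul (.add (.mul (.sub (.c (-4)) (.mul (.c 2) (.T))) (.P)) (.mul (.mul (.mul (.c 10) (.a)) (.add (.c 5) (.T))) (.s))) (.P)) (.mul (.c 2) (.t))),
    .c 0,
    .mul (.c (-1)) (.mul (.mul (.mul (.mul (.c 2) (.a)) (.add (.c 5) (.T))) (.pow (.P) 2)) (.mul (.c 2) (.t)))⟩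

/-- free value column 134 -/
def vf134 : VFz := ⟨⟨5, 0, 1, 1, 0⟩, [1508195901784, -12450317062192, 24881071184904, -12764288837896, -6664742306560, 3528424666688, 3724838361320, -1701719813000, -61462095048],
    .mul (.c (-1)) (.mul (.mul (.add (.mul (.sub (.c (-4)) (.mul (.c 2) (.T))) (.P)) (.mul (.mul (.mul (.c 10) (.a)) (.add (.c 5) (.T))) (.s))) (.P)) (.c (-2))),
    .c 0,
    .mul (.c (-1)) (.mul (.mul (.mul (.mul (.c 2) (.a)) (.add (.c 5) (.T))) (.pow (.P) 2)) (.c (-2))),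
    .c 0⟩

/-- free value column 135 -/
def vf135 : VFz := ⟨⟨5, 0, 1, 1, 1⟩, [-3444244092672, 10872360936992, 1302491355976, -45464000322536, 73977651692120, -52771591170072, 17909086173904, -2458922817904, 77168244192],
    .mul (.c (-1)) (.mul (.mul (.add (.mul (.sub (.c (-4)) (.mul (.c 2) (.T))) (.P)) (.mul (.mul (.mul (.c 10) (.a)) (.add (.c 5) (.T))) (.s))) (.P)) (.mul (.c (-2)) (.d))),
    .c 0,
    .mul (.c (-1)) (.mul (.mul (.mul (.mul (.c 2) (.a)) (.add (.c 5) (.T))) (.pow (.P) 2)) (.mul (.c (-2)) (.d))),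
    .c 0⟩

/-- free value column 136 -/
def vf136 : VFz := ⟨⟨5, 0, 1, 1, 2⟩, [-115767889560, 2132896116792, -7426706506272, 10987909844000, -7953553376600, 2691993982920, -332786790480, 16014619200],
    .mul (.c (-1)) (.mul (.mul (.add (.mul (.sub (.c (-4)) (.mul (.c 2) (.T))) (.P)) (.mul (.mul (.mul (.c 10) (.a)) (.add (.c 5) (.T))) (.s))) (.P)) (.mul (.c (-2)) (.pow (.d) 2))),
    .mul (.c (-1)) (.mul (.mul (.add (.mul (.sub (.c (-4)) (.mul (.c 2) (.T))) (.P)) (.mul (.mul (.mul (.c 10) (.a)) (.add (.c 5) (.T))) (.s))) (.P)) (.mul (.c 2) (.pow (.t) 2))),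
    .mul (.c (-1)) (.mul (.mul (.mul (.mul (.c 2) (.a)) (.add (.c 5) (.T))) (.pow (.P) 2)) (.mul (.c (-2)) (.pow (.d) 2))),
    .mul (.c (-1)) (.mul (.mul (.mul (.mul (.c 2) (.a)) (.add (.c 5) (.T))) (.pow (.P) 2)) (.mul (.c 2) (.pow (.t) 2)))⟩

/-- free value column 137 -/
def vf137 : VFz := ⟨⟨5, 0, 2, 0, 0⟩, [-1327241110456, 16206546458848, -44055789315336, 49904937318024, -31012346759120, 18493191183632, -11361491514536, 3213655833992, -61462095048],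
    .mul (.c (-1)) (.mul (.mul (.add (.mul (.sub (.c (-4)) (.mul (.c 2) (.T))) (.P)) (.mul (.mul (.mul (.c 10) (.a)) (.add (.c 5) (.T))) (.s))) (.P)) (.c 2)),
    .c 0,
    .mul (.c (-1)) (.mul (.mul (.mul (.mul (.c 2) (.a)) (.add (.c 5) (.T))) (.pow (.P) 2)) (.c 2)),
    .c 0⟩

/-- free value column 138 -/
def vf138 : VFz := ⟨⟨5, 0, 2, 0, 1⟩, [4555544077952, -25113800664192, 48331938742936, -35416930128216, -2049742371960, 15842509277496, -6641801542288, 415114364080, 77168244192],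
    .mul (.c (-1)) (.mul (.mul (.add (.mul (.sub (.c (-4)) (.mul (.c 2) (.T))) (.P)) (.mul (.mul (.mul (.c 10) (.a)) (.add (.c 5) (.T))) (.s))) (.P)) (.mul (.c 2) (.d))),
    .c 0,
    .mul (.c (-1)) (.mul (.mul (.mul (.mul (.c 2) (.a)) (.add (.c 5) (.T))) (.pow (.P) 2)) (.mul (.c 2) (.d))),
    .c 0⟩

/-- free value column 139 -/
def vf139 : VFz := ⟨⟨5, 0, 2, 0, 2⟩, [-115767889560, 2132896116792, -7426706506272, 10987909844000, -7953553376600, 2691993982920, -332786790480, 16014619200],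
    .mul (.c (-1)) (.mul (.mul (.add (.mul (.sub (.c (-4)) (.mul (.c 2) (.T))) (.P)) (.mul (.mul (.mul (.c 10) (.a)) (.add (.c 5) (.T))) (.s))) (.P)) (.mul (.c 2) (.pow (.d) 2))),
    .mul (.c (-1)) (.mul (.mul (.add (.mul (.sub (.c (-4)) (.mul (.c 2) (.T))) (.P)) (.mul (.mul (.mul (.c 10) (.a)) (.add (.c 5) (.T))) (.s))) (.P)) (.mul (.c 2) (.pow (.t) 2))),
    .mul (.c (-1)) (.mul (.mul (.mul (.mul (.c 2) (.a)) (.add (.c 5) (.T))) (.pow (.P) 2)) (.mul (.c 2) (.pow (.d) 2))),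
    .mul (.c (-1)) (.mul (.mul (.mul (.mul (.c 2) (.a)) (.add (.c 5) (.T))) (.pow (.P) 2)) (.mul (.c 2) (.pow (.t) 2)))⟩

/-- free value column 140 -/
def vf140 : VFz := ⟨⟨5, 0, 2, 1, 0⟩, [-1660753786872, 21841673103756, -86185951815696, 159860276285012, -157179684734240, 81990695248248, -20442724855428, 1834346738364, -57876183144],
    .mul (.c (-1)) (.mul (.mul (.add (.mul (.sub (.c (-4)) (.mul (.c 2) (.T))) (.P)) (.mul (.mul (.mul (.c 10) (.a)) (.add (.c 5) (.T))) (.s))) (.P)) (.mul (.c (-2)) (.t))),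
    .c 0,
    .mul (.c (-1)) (.mul (.mul (.mul (.mul (.c 2) (.a)) (.add (.c 5) (.T))) (.pow (.P) 2)) (.mul (.c (-2)) (.t))),
    .c 0⟩

/-- free value column 141 -/
def vf141 : VFz := ⟨⟨5, 0, 2, 1, 1⟩, [628687861804, -6012387373636, 11372608213632, 7017170703800, -43881330501560, 52922466539112, -27442076652736, 5394861209584],
    .mul (.c (-1)) (.mul (.mul (.add (.mul (.sub (.c (-4)) (.mul (.c 2) (.T))) (.P)) (.mul (.mul (.mul (.c 10) (.a)) (.add (.c 5) (.T))) (.s))) (.P)) (.mul (.mul (.c (-2)) (.t)) (.d))),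
    .c 0,
    .mul (.c (-1)) (.mul (.mul (.mul (.mul (.c 2) (.a)) (.add (.c 5) (.T))) (.pow (.P) 2)) (.mul (.mul (.c (-2)) (.t)) (.d))),
    .c 0⟩

/-- free value column 142 -/
def vf142 : VFz := ⟨⟨5, 0, 2, 2, 0⟩, [-74662718546, 945468038334, -3267768563784, 6067851231040, -8205498441990, 5649489276954, -1027990448270, 12010964400],
    .mul (.c (-1)) (.mul (.mul (.add (.mul (.sub (.c (-4)) (.mul (.c 2) (.T))) (.P)) (.mul (.mul (.mul (.c 10) (.a)) (.add (.c 5) (.T))) (.s))) (.P)) (.add (.mul (.c 2) (.pow (.u) 2)) (.mul (.c (-4)) (.pow (.t) 2)))),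
    .c 0,
    .mul (.c (-1)) (.mul (.mul (.mul (.mul (.c 2) (.a)) (.add (.c 5) (.T))) (.pow (.P) 2)) (.add (.mul (.c 2) (.pow (.u) 2)) (.mul (.c (-4)) (.pow (.t) 2)))),
    .c 0⟩

/-- free value column 143 -/
def vf143 : VFz := ⟨⟨5, 0, 2, 2, 1⟩, [-270784838330, 1243447686108, -1565826689310, -717205246640, 2231018552460, -625034076624, -274295939514],
    .mul (.c (-1)) (.mul (.mul (.add (.mul (.sub (.c (-4)) (.mul (.c 2) (.T))) (.P)) (.mul (.mul (.mul (.c 10) (.a)) (.add (.c 5) (.T))) (.s))) (.P)) (.add (.mul (.mul (.c 2) (.pow (.u) 2)) (.d)) (.mul (.mul (.c (-4)) (.pow (.t) 2)) (.d)))),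
    .c 0,
    .mul (.c (-1)) (.mul (.mul (.mul (.mul (.c 2) (.a)) (.add (.c 5) (.T))) (.pow (.P) 2)) (.add (.mul (.mul (.c 2) (.pow (.u) 2)) (.d)) (.mul (.mul (.c (-4)) (.pow (.t) 2)) (.d)))),
    .c 0⟩

/-- free value column 144 -/
def vf144 : VFz := ⟨⟨5, 0, 3, 0, 0⟩, [873568015112, -10455161006572, 46515323753696, -97443991371636, 105308623320960, -58142166336120, 14143508958660, -780413273052, -19292061048],
    .mul (.c (-1)) (.mul (.mul (.add (.mul (.sub (.c (-4)) (.mul (.c 2) (.T))) (.P)) (.mul (.mul (.mul (.c 10) (.a)) (.add (.c 5) (.T))) (.s))) (.P)) (.mul (.c 6) (.t))),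
    .c 0,
    .mul (.c (-1)) (.mul (.mul (.mul (.mul (.c 2) (.a)) (.add (.c 5) (.T))) (.pow (.P) 2)) (.mul (.c 6) (.t))),
    .c 0⟩

/-- free value column 145 -/
def vf145 : VFz := ⟨⟨5, 0, 3, 0, 1⟩, [-165616303564, -2519197093532, 18334217811456, -50968810079800, 75695544007960, -63690442470792, 28773223814656, -5458919686384],
    .mul (.c (-1)) (.mul (.mul (.add (.mul (.sub (.c (-4)) (.mul (.c 2) (.T))) (.P)) (.mul (.mul (.mul (.c 10) (.a)) (.add (.c 5) (.T))) (.s))) (.P)) (.mul (.mul (.c 6) (.t)) (.d))),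
    .c 0,
    .mul (.c (-1)) (.mul (.mul (.mul (.mul (.c 2) (.a)) (.add (.c 5) (.T))) (.pow (.P) 2)) (.mul (.mul (.c 6) (.t)) (.d))),
    .c 0⟩

/-- free value column 146 -/
def vf146 : VFz := ⟨⟨5, 0, 3, 1, 0⟩, [-115767889560, 2132896116792, -7426706506272, 10987909844000, -7953553376600, 2691993982920, -332786790480, 16014619200],
    .mul (.c (-1)) (.mul (.mul (.add (.mul (.sub (.c (-4)) (.mul (.c 2) (.T))) (.P)) (.mul (.mul (.mul (.c 10) (.a)) (.add (.c 5) (.T))) (.s))) (.P)) (.mul (.c (-2)) (.pow (.u) 2))),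
    .c 0,
    .mul (.c (-1)) (.mul (.mul (.mul (.mul (.c 2) (.a)) (.add (.c 5) (.T))) (.pow (.P) 2)) (.mul (.c (-2)) (.pow (.u) 2))),
    .c 0⟩

/-- free value column 147 -/
def vf147 : VFz := ⟨⟨5, 0, 4, 0, 0⟩, [-41105171014, 1187428078458, -4158937942488, 4920058612960, 251945065390, -2957495294034, 695203657790, 4003654800],
    .mul (.c (-1)) (.mul (.mul (.add (.mul (.sub (.c (-4)) (.mul (.c 2) (.T))) (.P)) (.mul (.mul (.mul (.c 10) (.a)) (.add (.c 5) (.T))) (.s))) (.P)) (.add (.mul (.c 2) (.pow (.u) 2)) (.mul (.c 12) (.pow (.t) 2)))),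
    .c 0,
    .mul (.c (-1)) (.mul (.mul (.mul (.mul (.c 2) (.a)) (.add (.c 5) (.T))) (.pow (.P) 2)) (.add (.mul (.c 2) (.pow (.u) 2)) (.mul (.c 12) (.pow (.t) 2)))),
    .c 0⟩

/-- free value column 148 -/
def vf148 : VFz := ⟨⟨5, 0, 4, 0, 1⟩, [270784838330, -1243447686108, 1565826689310, 717205246640, -2231018552460, 625034076624, 274295939514],
    .mul (.c (-1)) (.mul (.mul (.add (.mul (.sub (.c (-4)) (.mul (.c 2) (.T))) (.P)) (.mul (.mul (.mul (.c 10) (.a)) (.add (.c 5) (.T))) (.s))) (.P)) (.add (.mul (.mul (.c 2) (.pow (.u) 2)) (.d)) (.mul (.mul (.c 12) (.pow (.t) 2)) (.d)))),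
    .c 0,
    .mul (.c (-1)) (.mul (.mul (.mul (.mul (.c 2) (.a)) (.add (.c 5) (.T))) (.pow (.P) 2)) (.add (.mul (.mul (.c 2) (.pow (.u) 2)) (.d)) (.mul (.mul (.c 12) (.pow (.t) 2)) (.d)))),
    .c 0⟩

/-- free value column 149 -/
def vf149 : VFz := ⟨⟨5, 1, 0, 0, 0⟩, [-2121437994976, 12438836193920, -31212597911872, 43528924565248, -36687427002560, 19046956152832, -5930115794880, 999686388864, -62824596576],
    .c 0,
    .c 0,
    .c 0,
    .c 0⟩

/-- free value column 150 -/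
def vf150 : VFz := ⟨⟨5, 1, 0, 0, 1⟩, [2121437994976, -12438836193920, 31212597911872, -43528924565248, 36687427002560, -19046956152832, 5930115794880, -999686388864, 62824596576],
    .c 0,
    .c 0,
    .c 0,
    .c 0⟩

/-- free value column 151 -/
def vf151 : VFz := ⟨⟨5, 1, 1, 0, 0⟩, [-1473209567936, 6728980933888, -11284993838048, 6599633490496, 3426268811200, -7114149808064, 4006021674816, -980063588160, 91511891808],
    .c 0,
    .c 0,
    .c 0,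
    .c 0⟩

/-- free value column 152 -/
def vf152 : VFz := ⟨⟨5, 1, 1, 0, 1⟩, [-648228427040, 5709855260032, -19927604073824, 36929291074752, -40113695813760, 26161105960896, -9936137469696, 1979749977024, -154336488384],
    .c 0,
    .c 0,
    .c 0,
    .c 0⟩

/-- free value column 153 -/
def vf153 : VFz := ⟨⟨5, 1, 1, 1, 0⟩, [555649992640, -7120719863600, 24817215049456, -40440465225376, 35963954660080, -18464540946288, 5633642315808, -1021904226912, 77168244192],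
    .mul (.c (-1)) (.mul (.mul (.mul (.add (.mul (.sub (.c (-4)) (.mul (.c 2) (.T))) (.P)) (.mul (.mul (.mul (.c 10) (.a)) (.add (.c 5) (.T))) (.s))) (.w)) (.P)) (.c (-2))),
    .c 0,
    .mul (.c (-1)) (.mul (.mul (.mul (.mul (.mul (.c 2) (.a)) (.add (.c 5) (.T))) (.w)) (.pow (.P) 2)) (.c (-2))),
    .c 0⟩

/-- free value column 154 -/
def vf154 : VFz := ⟨⟨5, 1, 1, 1, 1⟩, [-231535779120, 4265792233584, -14853413012544, 21975819688000, -15907106753200, 5383987965840, -665573580960, 32029238400],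
    .mul (.c (-1)) (.mul (.mul (.mul (.add (.mul (.sub (.c (-4)) (.mul (.c 2) (.T))) (.P)) (.mul (.mul (.mul (.c 10) (.a)) (.add (.c 5) (.T))) (.s))) (.w)) (.P)) (.mul (.c (-2)) (.d))),
    .c 0,
    .mul (.c (-1)) (.mul (.mul (.mul (.mul (.mul (.c 2) (.a)) (.add (.c 5) (.T))) (.w)) (.pow (.P) 2)) (.mul (.c (-2)) (.d))),
    .c 0⟩

/-- free value column 155 -/
def vf155 : VFz := ⟨⟨5, 1, 2, 0, 0⟩, [555649992640, -7120719863600, 24817215049456, -40440465225376, 35963954660080, -18464540946288, 5633642315808, -1021904226912, 77168244192],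
    .mul (.c (-1)) (.mul (.mul (.mul (.add (.mul (.sub (.c (-4)) (.mul (.c 2) (.T))) (.P)) (.mul (.mul (.mul (.c 10) (.a)) (.add (.c 5) (.T))) (.s))) (.w)) (.P)) (.c 2)),
    .c 0,
    .mul (.c (-1)) (.mul (.mul (.mul (.mul (.mul (.c 2) (.a)) (.add (.c 5) (.T))) (.w)) (.pow (.P) 2)) (.c 2)),
    .c 0⟩

/-- free value column 156 -/
def vf156 : VFz := ⟨⟨5, 1, 2, 0, 1⟩, [-231535779120, 4265792233584, -14853413012544, 21975819688000, -15907106753200, 5383987965840, -665573580960, 32029238400],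
    .mul (.c (-1)) (.mul (.mul (.mul (.add (.mul (.sub (.c (-4)) (.mul (.c 2) (.T))) (.P)) (.mul (.mul (.mul (.c 10) (.a)) (.add (.c 5) (.T))) (.s))) (.w)) (.P)) (.mul (.c 2) (.d))),
    .c 0,
    .mul (.c (-1)) (.mul (.mul (.mul (.mul (.mul (.c 2) (.a)) (.add (.c 5) (.T))) (.w)) (.pow (.P) 2)) (.mul (.c 2) (.d))),
    .c 0⟩

/-- free value column 157 -/
def vf157 : VFz := ⟨⟨5, 1, 2, 1, 0⟩, [347303668680, -6398688350376, 22280119518816, -32963729532000, 23860660129800, -8075981948760, 998360371440, -48043857600],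
    .mul (.c (-1)) (.mul (.mul (.mul (.add (.mul (.sub (.c (-4)) (.mul (.c 2) (.T))) (.P)) (.mul (.mul (.mul (.c 10) (.a)) (.add (.c 5) (.T))) (.s))) (.w)) (.P)) (.mul (.c (-2)) (.t))),
    .c 0,
    .mul (.c (-1)) (.mul (.mul (.mul (.mul (.mul (.c 2) (.a)) (.add (.c 5) (.T))) (.w)) (.pow (.P) 2)) (.mul (.c (-2)) (.t))),
    .c 0⟩

/-- free value column 158 -/
def vf158 : VFz := ⟨⟨5, 1, 2, 2, 0⟩, [0, -81602155212, 919270682340, -2166051903160, 1380898063320, 368516313708, -463744621140],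
    .mul (.c (-1)) (.mul (.mul (.mul (.add (.mul (.sub (.c (-4)) (.mul (.c 2) (.T))) (.P)) (.mul (.mul (.mul (.c 10) (.a)) (.add (.c 5) (.T))) (.s))) (.w)) (.P)) (.add (.mul (.c 2) (.pow (.u) 2)) (.mul (.c (-4)) (.pow (.t) 2)))),
    .c 0,
    .mul (.c (-1)) (.mul (.mul (.mul (.mul (.mul (.c 2) (.a)) (.add (.c 5) (.T))) (.w)) (.pow (.P) 2)) (.add (.mul (.c 2) (.pow (.u) 2)) (.mul (.c (-4)) (.pow (.t) 2)))),
    .c 0⟩

/-- free value column 159 -/
def vf159 : VFz := ⟨⟨5, 1, 2, 2, 1⟩, [0, 276960589176, -1035671846850, 668948466480, 1975218596880, -3754837294248, 1860068004154],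
    .mul (.c (-1)) (.mul (.mul (.mul (.add (.mul (.sub (.c (-4)) (.mul (.c 2) (.T))) (.P)) (.mul (.mul (.mul (.c 10) (.a)) (.add (.c 5) (.T))) (.s))) (.w)) (.P)) (.add (.mul (.mul (.c 2) (.pow (.u) 2)) (.d)) (.mul (.mul (.c (-4)) (.pow (.t) 2)) (.d)))),
    .c 0,
    .mul (.c (-1)) (.mul (.mul (.mul (.mul (.mul (.c 2) (.a)) (.add (.c 5) (.T))) (.w)) (.pow (.P) 2)) (.add (.mul (.mul (.c 2) (.pow (.u) 2)) (.d)) (.mul (.mul (.c (-4)) (.pow (.t) 2)) (.d)))),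
    .c 0⟩

/-- free value column 160 -/
def vf160 : VFz := ⟨⟨5, 1, 3, 0, 0⟩, [115767889560, -2132896116792, 7426706506272, -10987909844000, 7953553376600, -2691993982920, 332786790480, -16014619200],
    .mul (.c (-1)) (.mul (.mul (.mul (.add (.mul (.sub (.c (-4)) (.mul (.c 2) (.T))) (.P)) (.mul (.mul (.mul (.c 10) (.a)) (.add (.c 5) (.T))) (.s))) (.w)) (.P)) (.mul (.c 6) (.t))),
    .c 0,
    .mul (.c (-1)) (.mul (.mul (.mul (.mul (.mul (.c 2) (.a)) (.add (.c 5) (.T))) (.w)) (.pow (.P) 2)) (.mul (.c 6) (.t))),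
    .c 0⟩

/-- free value column 161 -/
def vf161 : VFz := ⟨⟨5, 1, 4, 0, 0⟩, [0, 81602155212, -919270682340, 2166051903160, -1380898063320, -368516313708, 463744621140],
    .mul (.c (-1)) (.mul (.mul (.mul (.add (.mul (.sub (.c (-4)) (.mul (.c 2) (.T))) (.P)) (.mul (.mul (.mul (.c 10) (.a)) (.add (.c 5) (.T))) (.s))) (.w)) (.P)) (.add (.mul (.c 2) (.pow (.u) 2)) (.mul (.c 12) (.pow (.t) 2)))),
    .c 0,
    .mul (.c (-1)) (.mul (.mul (.mul (.mul (.mul (.c 2) (.a)) (.add (.c 5) (.T))) (.w)) (.pow (.P) 2)) (.add (.mul (.c 2) (.pow (.u) 2)) (.mul (.c 12) (.pow (.t) 2)))),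
    .c 0⟩

/-- free value column 162 -/
def vf162 : VFz := ⟨⟨5, 1, 4, 0, 1⟩, [0, -276960589176, 1035671846850, -668948466480, -1975218596880, 3754837294248, -1860068004154],
    .mul (.c (-1)) (.mul (.mul (.mul (.add (.mul (.sub (.c (-4)) (.mul (.c 2) (.T))) (.P)) (.mul (.mul (.mul (.c 10) (.a)) (.add (.c 5) (.T))) (.s))) (.w)) (.P)) (.add (.mul (.mul (.c 2) (.pow (.u) 2)) (.d)) (.mul (.mul (.c 12) (.pow (.t) 2)) (.d)))),
    .c 0,
    .mul (.c (-1)) (.mul (.mul (.mul (.mul (.mul (.c 2) (.a)) (.add (.c 5) (.T))) (.w)) (.pow (.P) 2)) (.add (.mul (.mul (.c 2) (.pow (.u) 2)) (.d)) (.mul (.mul (.c 12) (.pow (.t) 2)) (.d)))),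
    .c 0⟩

/-- free value column 163 -/
def vf163 : VFz := ⟨⟨5, 2, 0, 0, 0⟩, [1060718997488, -6219418096960, 15606298955936, -21764462282624, 18343713501280, -9523478076416, 2965057897440, -499843194432, 31412298288],
    .c 0,
    .c 0,
    .c 0,
    .c 0⟩

/-- free value column 164 -/
def vf164 : VFz := ⟨⟨5, 2, 1, 0, 0⟩, [-324114213520, 2854927630016, -9963802036912, 18464645537376, -20056847906880, 13080552980448, -4968068734848, 989874988512, -77168244192],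
    .c 0,
    .c 0,
    .c 0,
    .c 0⟩

/-- free value column 165 -/
def vf165 : VFz := ⟨⟨5, 2, 1, 1, 0⟩, [-115767889560, 2132896116792, -7426706506272, 10987909844000, -7953553376600, 2691993982920, -332786790480, 16014619200],
    .mul (.c (-1)) (.mul (.mul (.mul (.add (.mul (.sub (.c (-4)) (.mul (.c 2) (.T))) (.P)) (.mul (.mul (.mul (.c 10) (.a)) (.add (.c 5) (.T))) (.s))) (.pow (.w) 2)) (.P)) (.c (-2))),
    .c 0,
    .mul (.c (-1)) (.mul (.mul (.mul (.mul (.mul (.c 2) (.a)) (.add (.c 5) (.T))) (.pow (.w) 2)) (.pow (.P) 2)) (.c (-2))),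
    .c 0⟩

/-- free value column 166 -/
def vf166 : VFz := ⟨⟨5, 2, 2, 0, 0⟩, [-115767889560, 2132896116792, -7426706506272, 10987909844000, -7953553376600, 2691993982920, -332786790480, 16014619200],
    .mul (.c (-1)) (.mul (.mul (.mul (.add (.mul (.sub (.c (-4)) (.mul (.c 2) (.T))) (.P)) (.mul (.mul (.mul (.c 10) (.a)) (.add (.c 5) (.T))) (.s))) (.pow (.w) 2)) (.P)) (.c 2)),
    .c 0,
    .mul (.c (-1)) (.mul (.mul (.mul (.mul (.mul (.c 2) (.a)) (.add (.c 5) (.T))) (.pow (.w) 2)) (.pow (.P) 2)) (.c 2)),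
    .c 0⟩

/-- free value column 167 -/
def vf167 : VFz := ⟨⟨5, 2, 2, 2, 0⟩, [0, 33426474168, -171367042200, -325316948080, 1999138366740, -2607347769156, 1078481255040],
    .mul (.c (-1)) (.mul (.mul (.mul (.add (.mul (.sub (.c (-4)) (.mul (.c 2) (.T))) (.P)) (.mul (.mul (.mul (.c 10) (.a)) (.add (.c 5) (.T))) (.s))) (.pow (.w) 2)) (.P)) (.add (.mul (.c 2) (.pow (.u) 2)) (.mul (.c (-4)) (.pow (.t) 2)))),
    .c 0,
    .mul (.c (-1)) (.mul (.mul (.mul (.mul (.mul (.c 2) (.a)) (.add (.c 5) (.T))) (.pow (.w) 2)) (.pow (.P) 2)) (.add (.mul (.c 2) (.pow (.u) 2)) (.mul (.c (-4)) (.pow (.t) 2)))),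
    .c 0⟩

/-- free value column 168 -/
def vf168 : VFz := ⟨⟨5, 2, 2, 2, 1⟩, [0, 22103274924, -372742359570, 1062221875920, -1215231386100, 681569283396, -197560923176],
    .mul (.c (-1)) (.mul (.mul (.mul (.add (.mul (.sub (.c (-4)) (.mul (.c 2) (.T))) (.P)) (.mul (.mul (.mul (.c 10) (.a)) (.add (.c 5) (.T))) (.s))) (.pow (.w) 2)) (.P)) (.add (.mul (.mul (.c 2) (.pow (.u) 2)) (.d)) (.mul (.mul (.c (-4)) (.pow (.t) 2)) (.d)))),
    .c 0,
    .mul (.c (-1)) (.mul (.mul (.mul (.mul (.mul (.c 2) (.a)) (.add (.c 5) (.T))) (.pow (.w) 2)) (.pow (.P) 2)) (.add (.mul (.mul (.c 2) (.pow (.u) 2)) (.d)) (.mul (.mul (.c (-4)) (.pow (.t) 2)) (.d)))),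
    .c 0⟩

/-- free value column 169 -/
def vf169 : VFz := ⟨⟨5, 2, 4, 0, 0⟩, [0, -33426474168, 171367042200, 325316948080, -1999138366740, 2607347769156, -1078481255040],
    .mul (.c (-1)) (.mul (.mul (.mul (.add (.mul (.sub (.c (-4)) (.mul (.c 2) (.T))) (.P)) (.mul (.mul (.mul (.c 10) (.a)) (.add (.c 5) (.T))) (.s))) (.pow (.w) 2)) (.P)) (.add (.mul (.c 2) (.pow (.u) 2)) (.mul (.c 12) (.pow (.t) 2)))),
    .c 0,
    .mul (.c (-1)) (.mul (.mul (.mul (.mul (.mul (.c 2) (.a)) (.add (.c 5) (.T))) (.pow (.w) 2)) (.pow (.P) 2)) (.add (.mul (.c 2) (.pow (.u) 2)) (.mul (.c 12) (.pow (.t) 2)))),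
    .c 0⟩

/-- free value column 170 -/
def vf170 : VFz := ⟨⟨5, 2, 4, 0, 1⟩, [0, -22103274924, 372742359570, -1062221875920, 1215231386100, -681569283396, 197560923176],
    .mul (.c (-1)) (.mul (.mul (.mul (.add (.mul (.sub (.c (-4)) (.mul (.c 2) (.T))) (.P)) (.mul (.mul (.mul (.c 10) (.a)) (.add (.c 5) (.T))) (.s))) (.pow (.w) 2)) (.P)) (.add (.mul (.mul (.c 2) (.pow (.u) 2)) (.d)) (.mul (.mul (.c 12) (.pow (.t) 2)) (.d)))),
    .c 0,
    .mul (.c (-1)) (.mul (.mul (.mul (.mul (.mul (.c 2) (.a)) (.add (.c 5) (.T))) (.pow (.w) 2)) (.pow (.P) 2)) (.add (.mul (.mul (.c 2) (.pow (.u) 2)) (.d)) (.mul (.mul (.c 12) (.pow (.t) 2)) (.d)))),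
    .c 0⟩

/-- free value column 171 -/
def vf171 : VFz := ⟨⟨5, 3, 2, 2, 0⟩, [0, -5477493276, 82861016070, -513417836760, 876343471590, -296898279552, -128335217822],
    .mul (.c (-1)) (.mul (.mul (.mul (.add (.mul (.sub (.c (-4)) (.mul (.c 2) (.T))) (.P)) (.mul (.mul (.mul (.c 10) (.a)) (.add (.c 5) (.T))) (.s))) (.pow (.w) 3)) (.P)) (.add (.mul (.c 2) (.pow (.u) 2)) (.mul (.c (-4)) (.pow (.t) 2)))),
    .c 0,
    .mul (.c (-1)) (.mul (.mul (.mul (.mul (.mul (.c 2) (.a)) (.add (.c 5) (.T))) (.pow (.w) 3)) (.pow (.P) 2)) (.add (.mul (.c 2) (.pow (.u) 2)) (.mul (.c (-4)) (.pow (.t) 2)))),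
    .c 0⟩

/-- free value column 172 -/
def vf172 : VFz := ⟨⟨5, 3, 2, 2, 1⟩, [0, 3610532544, 79299538470, -116094357280, -97172630130, 176051342640, -18004655096],
    .mul (.c (-1)) (.mul (.mul (.mul (.add (.mul (.sub (.c (-4)) (.mul (.c 2) (.T))) (.P)) (.mul (.mul (.mul (.c 10) (.a)) (.add (.c 5) (.T))) (.s))) (.pow (.w) 3)) (.P)) (.add (.mul (.mul (.c 2) (.pow (.u) 2)) (.d)) (.mul (.mul (.c (-4)) (.pow (.t) 2)) (.d)))),
    .c 0,
    .mul (.c (-1)) (.mul (.mul (.mul (.mul (.mul (.c 2) (.a)) (.add (.c 5) (.T))) (.pow (.w) 3)) (.pow (.P) 2)) (.add (.mul (.mul (.c 2) (.pow (.u) 2)) (.d)) (.mul (.mul (.c (-4)) (.pow (.t) 2)) (.d)))),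
    .c 0⟩

/-- free value column 173 -/
def vf173 : VFz := ⟨⟨5, 3, 4, 0, 0⟩, [0, 5477493276, -82861016070, 513417836760, -876343471590, 296898279552, 128335217822],
    .mul (.c (-1)) (.mul (.mul (.mul (.add (.mul (.sub (.c (-4)) (.mul (.c 2) (.T))) (.P)) (.mul (.mul (.mul (.c 10) (.a)) (.add (.c 5) (.T))) (.s))) (.pow (.w) 3)) (.P)) (.add (.mul (.c 2) (.pow (.u) 2)) (.mul (.c 12) (.pow (.t) 2)))),
    .c 0,
    .mul (.c (-1)) (.mul (.mul (.mul (.mul (.mul (.c 2) (.a)) (.add (.c 5) (.T))) (.pow (.w) 3)) (.pow (.P) 2)) (.add (.mul (.c 2) (.pow (.u) 2)) (.mul (.c 12) (.pow (.t) 2)))),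
    .c 0⟩

/-- free value column 174 -/
def vf174 : VFz := ⟨⟨5, 3, 4, 0, 1⟩, [0, -3610532544, -79299538470, 116094357280, 97172630130, -176051342640, 18004655096],
    .mul (.c (-1)) (.mul (.mul (.mul (.add (.mul (.sub (.c (-4)) (.mul (.c 2) (.T))) (.P)) (.mul (.mul (.mul (.c 10) (.a)) (.add (.c 5) (.T))) (.s))) (.pow (.w) 3)) (.P)) (.add (.mul (.mul (.c 2) (.pow (.u) 2)) (.d)) (.mul (.mul (.c 12) (.pow (.t) 2)) (.d)))),
    .c 0,
    .mul (.c (-1)) (.mul (.mul (.mul (.mul (.mul (.c 2) (.a)) (.add (.c 5) (.T))) (.pow (.w) 3)) (.pow (.P) 2)) (.add (.mul (.mul (.c 2) (.pow (.u) 2)) (.d)) (.mul (.mul (.c 12) (.pow (.t) 2)) (.d)))),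
    .c 0⟩

/-- free value column 175 -/
def vf175 : VFz := ⟨⟨6, 0, 0, 0, 0⟩, [-240159179664, 1515773802384, -4148017828368, 6432290638640, -6190500327792, 3797603425584, -1460561046064, 329144679888, -36895120320, 1320955712],
    .c 0,
    .c 0,
    .c 0,
    .c 0⟩

/-- free value column 176 -/
def vf176 : VFz := ⟨⟨6, 0, 0, 0, 1⟩, [480318359328, -3031547604768, 8296035656736, -12864581277280, 12381000655584, -7595206851168, 2921122092128, -658289359776, 73790240640, -2641911424],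
    .c 0,
    .c 0,
    .c 0,
    .c 0⟩

/-- free value column 177 -/
def vf177 : VFz := ⟨⟨6, 0, 0, 0, 2⟩, [-240159179664, 1515773802384, -4148017828368, 6432290638640, -6190500327792, 3797603425584, -1460561046064, 329144679888, -36895120320, 1320955712],
    .c 0,
    .mul (.c (-1)) (.mul (.add (.mul (.sub (.c (-4)) (.mul (.c 2) (.T))) (.P)) (.mul (.mul (.mul (.c 12) (.a)) (.add (.c 5) (.T))) (.s))) (.c 2)),
    .c 0,
    .mul (.c (-1)) (.mul (.mul (.mul (.mul (.c 2) (.a)) (.add (.c 5) (.T))) (.P)) (.c 2))⟩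

/-- free value column 178 -/
def vf178 : VFz := ⟨⟨6, 0, 1, 0, 0⟩, [-389241896896, 2187243976608, -5142697753488, 6494091695536, -4653298324080, 1767474220272, -213126697120, -77327656032, 30189503136, -3307067936],
    .c 0,
    .c 0,
    .c 0,
    .c 0⟩

/-- free value column 179 -/
def vf179 : VFz := ⟨⟨6, 0, 1, 0, 1⟩, [298165434464, -1342940348448, 1989359850240, -123602113792, -3074404007424, 4060258410624, -2494868697888, 812944671840, -134169246912, 9256047296],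
    .c 0,
    .c 0,
    .c 0,
    .c 0⟩

/-- free value column 180 -/
def vf180 : VFz := ⟨⟨6, 0, 1, 0, 2⟩, [91076462432, -844303628160, 3153337903248, -6370489581744, 7727702331504, -5827732630896, 2707995395008, -735617015808, 103979743776, -5948979360],
    .c 0,
    .mul (.c (-1)) (.mul (.add (.mul (.sub (.c (-4)) (.mul (.c 2) (.T))) (.P)) (.mul (.mul (.mul (.c 12) (.a)) (.add (.c 5) (.T))) (.s))) (.mul (.c 2) (.t))),
    .c 0,
    .mul (.c (-1)) (.mul (.mul (.mul (.mul (.c 2) (.a)) (.add (.c 5) (.T))) (.P)) (.mul (.c 2) (.t)))⟩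

/-- free value column 181 -/
def vf181 : VFz := ⟨⟨6, 0, 1, 1, 0⟩, [-230205161296, 3056282280312, -6723923368248, 4054728115224, -854860093192, 4640202992792, -6121335378648, 2253778611736, -69379497176, -5288501504],
    .mul (.c (-1)) (.mul (.add (.mul (.sub (.c (-4)) (.mul (.c 2) (.T))) (.P)) (.mul (.mul (.mul (.c 12) (.a)) (.add (.c 5) (.T))) (.s))) (.c (-2))),
    .c 0,
    .mul (.c (-1)) (.mul (.mul (.mul (.mul (.c 2) (.a)) (.add (.c 5) (.T))) (.P)) (.c (-2))),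
    .c 0⟩

/-- free value column 182 -/
def vf182 : VFz := ⟨⟨6, 0, 1, 1, 1⟩, [690711127344, -1902150442768, -4218832101880, 23634554368848, -38458916520144, 30105431365152, -12090108802192, 2635123416528, -401761390248, 5948979360],
    .mul (.c (-1)) (.mul (.add (.mul (.sub (.c (-4)) (.mul (.c 2) (.T))) (.P)) (.mul (.mul (.mul (.c 12) (.a)) (.add (.c 5) (.T))) (.s))) (.mul (.c (-2)) (.d))),
    .c 0,
    .mul (.c (-1)) (.mul (.mul (.mul (.mul (.c 2) (.a)) (.add (.c 5) (.T))) (.P)) (.mul (.c (-2)) (.d))),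
    .c 0⟩

/-- free value column 183 -/
def vf183 : VFz := ⟨⟨6, 0, 1, 1, 2⟩, [51042107056, -718866299504, 2461585192840, -3758384834592, 2918244367920, -1110151440480, 145351391712, 12914322336, -1734807288],
    .mul (.c (-1)) (.mul (.add (.mul (.sub (.c (-4)) (.mul (.c 2) (.T))) (.P)) (.mul (.mul (.mul (.c 12) (.a)) (.add (.c 5) (.T))) (.s))) (.mul (.c (-2)) (.pow (.d) 2))),
    .mul (.c (-1)) (.mul (.add (.mul (.sub (.c (-4)) (.mul (.c 2) (.T))) (.P)) (.mul (.mul (.mul (.c 12) (.a)) (.add (.c 5) (.T))) (.s))) (.mul (.c 2) (.pow (.t) 2))),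
    .mul (.c (-1)) (.mul (.mul (.mul (.mul (.c 2) (.a)) (.add (.c 5) (.T))) (.P)) (.mul (.c (-2)) (.pow (.d) 2))),
    .mul (.c (-1)) (.mul (.mul (.mul (.mul (.c 2) (.a)) (.add (.c 5) (.T))) (.P)) (.mul (.c 2) (.pow (.t) 2)))⟩

/-- free value column 184 -/
def vf184 : VFz := ⟨⟨6, 0, 2, 0, 0⟩, [274283120608, -4666848333256, 13805751732056, -17880186309256, 15956253164248, -14718367709960, 10367467906024, -3370039318792, 236974249832, -5288501504],
    .mul (.c (-1)) (.mul (.add (.mul (.sub (.c (-4)) (.mul (.c 2) (.T))) (.P)) (.mul (.mul (.mul (.c 12) (.a)) (.add (.c 5) (.T))) (.s))) (.c 2)),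
    .c 0,
    .mul (.c (-1)) (.mul (.mul (.mul (.mul (.c 2) (.a)) (.add (.c 5) (.T))) (.P)) (.c 2)),
    .c 0⟩

/-- free value column 185 -/
def vf185 : VFz := ⟨⟨6, 0, 2, 0, 1⟩, [-1077032480432, 6466222897104, -11934184475976, 4139964133008, 11330534385456, -14009360341440, 6092712445328, -1215546674256, 200741131848, 5948979360],
    .mul (.c (-1)) (.mul (.add (.mul (.sub (.c (-4)) (.mul (.c 2) (.T))) (.P)) (.mul (.mul (.mul (.c 12) (.a)) (.add (.c 5) (.T))) (.s))) (.mul (.c 2) (.d))),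
    .c 0,
    .mul (.c (-1)) (.mul (.mul (.mul (.mul (.c 2) (.a)) (.add (.c 5) (.T))) (.P)) (.mul (.c 2) (.d))),
    .c 0⟩

/-- free value column 186 -/
def vf186 : VFz := ⟨⟨6, 0, 2, 0, 2⟩, [51042107056, -718866299504, 2461585192840, -3758384834592, 2918244367920, -1110151440480, 145351391712, 12914322336, -1734807288],
    .mul (.c (-1)) (.mul (.add (.mul (.sub (.c (-4)) (.mul (.c 2) (.T))) (.P)) (.mul (.mul (.mul (.c 12) (.a)) (.add (.c 5) (.T))) (.s))) (.mul (.c 2) (.pow (.d) 2))),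
    .mul (.c (-1)) (.mul (.add (.mul (.sub (.c (-4)) (.mul (.c 2) (.T))) (.P)) (.mul (.mul (.mul (.c 12) (.a)) (.add (.c 5) (.T))) (.s))) (.mul (.c 2) (.pow (.t) 2))),
    .mul (.c (-1)) (.mul (.mul (.mul (.mul (.c 2) (.a)) (.add (.c 5) (.T))) (.P)) (.mul (.c 2) (.pow (.d) 2))),
    .mul (.c (-1)) (.mul (.mul (.mul (.mul (.c 2) (.a)) (.add (.c 5) (.T))) (.P)) (.mul (.c 2) (.pow (.t) 2)))⟩

/-- free value column 187 -/
def vf187 : VFz := ⟨⟨6, 0, 2, 1, 0⟩, [695157033532, -7846781741000, 31692037515352, -63212162326292, 68797174703908, -40861608548636, 11894589668360, -1122711782872, -31232787832, -4461734520],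
    .mul (.c (-1)) (.mul (.add (.mul (.sub (.c (-4)) (.mul (.c 2) (.T))) (.P)) (.mul (.mul (.mul (.c 12) (.a)) (.add (.c 5) (.T))) (.s))) (.mul (.c (-2)) (.t))),
    .c 0,
    .mul (.c (-1)) (.mul (.mul (.mul (.mul (.c 2) (.a)) (.add (.c 5) (.T))) (.P)) (.mul (.c (-2)) (.t))),
    .c 0⟩

/-- free value column 188 -/
def vf188 : VFz := ⟨⟨6, 0, 2, 1, 1⟩, [-212257920416, 1545360207088, -551202686108, -13983877040584, 39638611403540, -50148337940584, 34182017605300, -12366323769728, 1896010141492],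
    .mul (.c (-1)) (.mul (.add (.mul (.sub (.c (-4)) (.mul (.c 2) (.T))) (.P)) (.mul (.mul (.mul (.c 12) (.a)) (.add (.c 5) (.T))) (.s))) (.mul (.mul (.c (-2)) (.t)) (.d))),
    .c 0,
    .mul (.c (-1)) (.mul (.mul (.mul (.mul (.c 2) (.a)) (.add (.c 5) (.T))) (.P)) (.mul (.mul (.c (-2)) (.t)) (.d))),
    .c 0⟩

/-- free value column 189 -/
def vf189 : VFz := ⟨⟨6, 0, 2, 2, 0⟩, [26118381668, 183108980464, -1337375293518, 2633546839296, -3047459072280, 3455123555508, -2711311559528, 799549273856, -1301105466],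
    .mul (.c (-1)) (.mul (.add (.mul (.sub (.c (-4)) (.mul (.c 2) (.T))) (.P)) (.mul (.mul (.mul (.c 12) (.a)) (.add (.c 5) (.T))) (.s))) (.add (.mul (.c 2) (.pow (.u) 2)) (.mul (.c (-4)) (.pow (.t) 2)))),
    .c 0,
    .mul (.c (-1)) (.mul (.mul (.mul (.mul (.c 2) (.a)) (.add (.c 5) (.T))) (.P)) (.add (.mul (.c 2) (.pow (.u) 2)) (.mul (.c (-4)) (.pow (.t) 2)))),
    .c 0⟩

/-- free value column 190 -/
def vf190 : VFz := ⟨⟨6, 0, 2, 2, 1⟩, [270784838330, -1521506779298, 2826490130508, -801197871100, -3744250775750, 5976411435546, -4381007300038, 1374276321802],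
    .mul (.c (-1)) (.mul (.add (.mul (.sub (.c (-4)) (.mul (.c 2) (.T))) (.P)) (.mul (.mul (.mul (.c 12) (.a)) (.add (.c 5) (.T))) (.s))) (.add (.mul (.mul (.c 2) (.pow (.u) 2)) (.d)) (.mul (.mul (.c (-4)) (.pow (.t) 2)) (.d)))),
    .c 0,
    .mul (.c (-1)) (.mul (.mul (.mul (.mul (.c 2) (.a)) (.add (.c 5) (.T))) (.P)) (.add (.mul (.mul (.c 2) (.pow (.u) 2)) (.d)) (.mul (.mul (.c (-4)) (.pow (.t) 2)) (.d)))),
    .c 0⟩

/-- free value column 191 -/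
def vf191 : VFz := ⟨⟨6, 0, 3, 0, 0⟩, [-399912142876, 4127012914824, -18692358840744, 41808133406180, -49396494900724, 30593270155820, -8605188706504, 438752056408, 128273302456, -1487244840],
    .mul (.c (-1)) (.mul (.add (.mul (.sub (.c (-4)) (.mul (.c 2) (.T))) (.P)) (.mul (.mul (.mul (.c 12) (.a)) (.add (.c 5) (.T))) (.s))) (.mul (.c 6) (.t))),
    .c 0,
    .mul (.c (-1)) (.mul (.mul (.mul (.mul (.c 2) (.a)) (.add (.c 5) (.T))) (.P)) (.mul (.c 6) (.t))),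
    .c 0⟩

/-- free value column 192 -/
def vf192 : VFz := ⟨⟨6, 0, 3, 0, 1⟩, [8089492192, 1330104990928, -9295138085252, 29017416378952, -51311588875220, 54588943702504, -34763423172148, 12314666480384, -1889070912340],
    .mul (.c (-1)) (.mul (.add (.mul (.sub (.c (-4)) (.mul (.c 2) (.T))) (.P)) (.mul (.mul (.mul (.c 12) (.a)) (.add (.c 5) (.T))) (.s))) (.mul (.mul (.c 6) (.t)) (.d))),
    .c 0,
    .mul (.c (-1)) (.mul (.mul (.mul (.mul (.c 2) (.a)) (.add (.c 5) (.T))) (.P)) (.mul (.mul (.c 6) (.t)) (.d))),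
    .c 0⟩

/-- free value column 193 -/
def vf193 : VFz := ⟨⟨6, 0, 3, 1, 0⟩, [51042107056, -718866299504, 2461585192840, -3758384834592, 2918244367920, -1110151440480, 145351391712, 12914322336, -1734807288],
    .mul (.c (-1)) (.mul (.add (.mul (.sub (.c (-4)) (.mul (.c 2) (.T))) (.P)) (.mul (.mul (.mul (.c 12) (.a)) (.add (.c 5) (.T))) (.s))) (.mul (.c (-2)) (.pow (.u) 2))),
    .c 0,
    .mul (.c (-1)) (.mul (.mul (.mul (.mul (.c 2) (.a)) (.add (.c 5) (.T))) (.P)) (.mul (.c (-2)) (.pow (.u) 2))),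
    .c 0⟩

/-- free value column 194 -/
def vf194 : VFz := ⟨⟨6, 0, 4, 0, 0⟩, [24923725388, -901975279968, 3798960486358, -6391931673888, 5965703440200, -4565274995988, 2856662951240, -786634951520, -433701822],
    .mul (.c (-1)) (.mul (.add (.mul (.sub (.c (-4)) (.mul (.c 2) (.T))) (.P)) (.mul (.mul (.mul (.c 12) (.a)) (.add (.c 5) (.T))) (.s))) (.add (.mul (.c 2) (.pow (.u) 2)) (.mul (.c 12) (.pow (.t) 2)))),
    .c 0,
    .mul (.c (-1)) (.mul (.mul (.mul (.mul (.c 2) (.a)) (.add (.c 5) (.T))) (.P)) (.add (.mul (.c 2) (.pow (.u) 2)) (.mul (.c 12) (.pow (.t) 2)))),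
    .c 0⟩

/-- free value column 195 -/
def vf195 : VFz := ⟨⟨6, 0, 4, 0, 1⟩, [-270784838330, 1521506779298, -2826490130508, 801197871100, 3744250775750, -5976411435546, 4381007300038, -1374276321802],
    .mul (.c (-1)) (.mul (.add (.mul (.sub (.c (-4)) (.mul (.c 2) (.T))) (.P)) (.mul (.mul (.mul (.c 12) (.a)) (.add (.c 5) (.T))) (.s))) (.add (.mul (.mul (.c 2) (.pow (.u) 2)) (.d)) (.mul (.mul (.c 12) (.pow (.t) 2)) (.d)))),
    .c 0,
    .mul (.c (-1)) (.mul (.mul (.mul (.mul (.c 2) (.a)) (.add (.c 5) (.T))) (.P)) (.add (.mul (.mul (.c 2) (.pow (.u) 2)) (.d)) (.mul (.mul (.c 12) (.pow (.t) 2)) (.d)))),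
    .c 0⟩

/-- free value column 196 -/
def vf196 : VFz := ⟨⟨6, 1, 0, 0, 0⟩, [480318359328, -3031547604768, 8296035656736, -12864581277280, 12381000655584, -7595206851168, 2921122092128, -658289359776, 73790240640, -2641911424],
    .c 0,
    .c 0,
    .c 0,
    .c 0⟩

/-- free value column 197 -/
def vf197 : VFz := ⟨⟨6, 1, 0, 0, 1⟩, [-480318359328, 3031547604768, -8296035656736, 12864581277280, -12381000655584, 7595206851168, -2921122092128, 658289359776, -73790240640, 2641911424],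
    .c 0,
    .c 0,
    .c 0,
    .c 0⟩

/-- free value column 198 -/
def vf198 : VFz := ⟨⟨6, 1, 1, 0, 0⟩, [298165434464, -1342940348448, 1989359850240, -123602113792, -3074404007424, 4060258410624, -2494868697888, 812944671840, -134169246912, 9256047296],
    .c 0,
    .c 0,
    .c 0,
    .c 0⟩

/-- free value column 199 -/
def vf199 : VFz := ⟨⟨6, 1, 1, 0, 1⟩, [182152924864, -1688607256320, 6306675806496, -12740979163488, 15455404663008, -11655465261792, 5415990790016, -1471234031616, 207959487552, -11897958720],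
    .c 0,
    .c 0,
    .c 0,
    .c 0⟩

/-- free value column 200 -/
def vf200 : VFz := ⟨⟨6, 1, 1, 1, 0⟩, [-193160676544, 2282036227168, -8076508288928, 13887259250928, -13564191067344, 8048035511856, -2998698178432, 709788371136, -100510129200, 5948979360],
    .mul (.c (-1)) (.mul (.mul (.add (.mul (.sub (.c (-4)) (.mul (.c 2) (.T))) (.P)) (.mul (.mul (.mul (.c 12) (.a)) (.add (.c 5) (.T))) (.s))) (.w)) (.c (-2))),
    .c 0,
    .mul (.c (-1)) (.mul (.mul (.mul (.mul (.mul (.c 2) (.a)) (.add (.c 5) (.T))) (.w)) (.P)) (.c (-2))),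
    .c 0⟩

/-- free value column 201 -/
def vf201 : VFz := ⟨⟨6, 1, 1, 1, 1⟩, [102084214112, -1437732599008, 4923170385680, -7516769669184, 5836488735840, -2220302880960, 290702783424, 25828644672, -3469614576],
    .mul (.c (-1)) (.mul (.mul (.add (.mul (.sub (.c (-4)) (.mul (.c 2) (.T))) (.P)) (.mul (.mul (.mul (.c 12) (.a)) (.add (.c 5) (.T))) (.s))) (.w)) (.mul (.c (-2)) (.d))),
    .c 0,
    .mul (.c (-1)) (.mul (.mul (.mul (.mul (.mul (.c 2) (.a)) (.add (.c 5) (.T))) (.w)) (.P)) (.mul (.c (-2)) (.d))),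
    .c 0⟩

/-- free value column 202 -/
def vf202 : VFz := ⟨⟨6, 1, 2, 0, 0⟩, [-193160676544, 2282036227168, -8076508288928, 13887259250928, -13564191067344, 8048035511856, -2998698178432, 709788371136, -100510129200, 5948979360],
    .mul (.c (-1)) (.mul (.mul (.add (.mul (.sub (.c (-4)) (.mul (.c 2) (.T))) (.P)) (.mul (.mul (.mul (.c 12) (.a)) (.add (.c 5) (.T))) (.s))) (.w)) (.c 2)),
    .c 0,
    .mul (.c (-1)) (.mul (.mul (.mul (.mul (.mul (.c 2) (.a)) (.add (.c 5) (.T))) (.w)) (.P)) (.c 2)),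
    .c 0⟩

/-- free value column 203 -/
def vf203 : VFz := ⟨⟨6, 1, 2, 0, 1⟩, [102084214112, -1437732599008, 4923170385680, -7516769669184, 5836488735840, -2220302880960, 290702783424, 25828644672, -3469614576],
    .mul (.c (-1)) (.mul (.mul (.add (.mul (.sub (.c (-4)) (.mul (.c 2) (.T))) (.P)) (.mul (.mul (.mul (.c 12) (.a)) (.add (.c 5) (.T))) (.s))) (.w)) (.mul (.c 2) (.d))),
    .c 0,
    .mul (.c (-1)) (.mul (.mul (.mul (.mul (.mul (.c 2) (.a)) (.add (.c 5) (.T))) (.w)) (.P)) (.mul (.c 2) (.d))),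
    .c 0⟩

/-- free value column 204 -/
def vf204 : VFz := ⟨⟨6, 1, 2, 1, 0⟩, [-153126321168, 2156598898512, -7384755578520, 11275154503776, -8754733103760, 3330454321440, -436054175136, -38742967008, 5204421864],
    .mul (.c (-1)) (.mul (.mul (.add (.mul (.sub (.c (-4)) (.mul (.c 2) (.T))) (.P)) (.mul (.mul (.mul (.c 12) (.a)) (.add (.c 5) (.T))) (.s))) (.w)) (.mul (.c (-2)) (.t))),
    .c 0,
    .mul (.c (-1)) (.mul (.mul (.mul (.mul (.mul (.c 2) (.a)) (.add (.c 5) (.T))) (.w)) (.P)) (.mul (.c (-2)) (.t))),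
    .c 0⟩

/-- free value column 205 -/
def vf205 : VFz := ⟨⟨6, 1, 3, 0, 0⟩, [-51042107056, 718866299504, -2461585192840, 3758384834592, -2918244367920, 1110151440480, -145351391712, -12914322336, 1734807288],
    .mul (.c (-1)) (.mul (.mul (.add (.mul (.sub (.c (-4)) (.mul (.c 2) (.T))) (.P)) (.mul (.mul (.mul (.c 12) (.a)) (.add (.c 5) (.T))) (.s))) (.w)) (.mul (.c 6) (.t))),
    .c 0,
    .mul (.c (-1)) (.mul (.mul (.mul (.mul (.mul (.c 2) (.a)) (.add (.c 5) (.T))) (.w)) (.P)) (.mul (.c 6) (.t))),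
    .c 0⟩

/-- free value column 206 -/
def vf206 : VFz := ⟨⟨6, 2, 0, 0, 0⟩, [-240159179664, 1515773802384, -4148017828368, 6432290638640, -6190500327792, 3797603425584, -1460561046064, 329144679888, -36895120320, 1320955712],
    .c 0,
    .c 0,
    .c 0,
    .c 0⟩

/-- free value column 207 -/
def vf207 : VFz := ⟨⟨6, 2, 1, 0, 0⟩, [91076462432, -844303628160, 3153337903248, -6370489581744, 7727702331504, -5827732630896, 2707995395008, -735617015808, 103979743776, -5948979360],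
    .c 0,
    .c 0,
    .c 0,
    .c 0⟩

/-- free value column 208 -/
def vf208 : VFz := ⟨⟨6, 2, 1, 1, 0⟩, [51042107056, -718866299504, 2461585192840, -3758384834592, 2918244367920, -1110151440480, 145351391712, 12914322336, -1734807288],
    .mul (.c (-1)) (.mul (.mul (.add (.mul (.sub (.c (-4)) (.mul (.c 2) (.T))) (.P)) (.mul (.mul (.mul (.c 12) (.a)) (.add (.c 5) (.T))) (.s))) (.pow (.w) 2)) (.c (-2))),
    .c 0,
    .mul (.c (-1)) (.mul (.mul (.mul (.mul (.mul (.c 2) (.a)) (.add (.c 5) (.T))) (.pow (.w) 2)) (.P)) (.c (-2))),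
    .c 0⟩

/-- free value column 209 -/
def vf209 : VFz := ⟨⟨6, 2, 2, 0, 0⟩, [51042107056, -718866299504, 2461585192840, -3758384834592, 2918244367920, -1110151440480, 145351391712, 12914322336, -1734807288],
    .mul (.c (-1)) (.mul (.mul (.add (.mul (.sub (.c (-4)) (.mul (.c 2) (.T))) (.P)) (.mul (.mul (.mul (.c 12) (.a)) (.add (.c 5) (.T))) (.s))) (.pow (.w) 2)) (.c 2)),
    .c 0,
    .mul (.c (-1)) (.mul (.mul (.mul (.mul (.mul (.c 2) (.a)) (.add (.c 5) (.T))) (.pow (.w) 2)) (.P)) (.c 2)),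
    .c 0⟩

/-- free row column 0 -/
def rf0 : RFz := ⟨⟨0, 3, 0, [(0, 1)]⟩, [-264332792736, 491869186560, 263789445024, -986630157216, 496952989632],
    .mul (.pow (.P) 3) (.mul (.c (-36)) (.T)),
    .c 0⟩

/-- free row column 1 -/
def rf1 : RFz := ⟨⟨0, 3, 1, [(0, 1)]⟩, [0, 408113406336, -713693493120, 384688154112, -86801866560],
    .mul (.pow (.P) 3) (.mul (.mul (.c 36) (.T)) (.t)),
    .c 0⟩

/-- free row column 2 -/
def rf2 : RFz := ⟨⟨0, 4, 0, [(0, 1)]⟩, [442397217312, -850643789184, -83079266976, 986630157216, -538705251648, 43400933280],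
    .mul (.pow (.P) 2) (.mul (.c (-48)) (.T)),
    .c 0⟩

/-- free row column 3 -/
def rf3 : RFz := ⟨⟨0, 4, 1, [(0, 1)]⟩, [0, 434105684928, -711765637056, -341104842432, 1070540239680, -451775445120],
    .mul (.pow (.P) 2) (.mul (.mul (.c 48) (.T)) (.t)),
    .c 0⟩

/-- free row column 4 -/
def rf4 : RFz := ⟨⟨0, 4, 2, [(0, 1)]⟩, [0, 0, -7366973666688, 15820783924608, -7783589913984, -737815865760],
    .mul (.pow (.P) 2) (.add (.add (.add (.add (.add (.add (.mul (.mul (.c 4) (.P)) (.v)) (.mul (.mul (.c 4) (.P)) (.t))) (.mul (.mul (.c (-10)) (.P)) (.s))) (.mul (.mul (.c (-48)) (.T)) (.pow (.u) 2))) (.mul (.mul (.c 96) (.T)) (.pow (.t) 2))) (.mul (.mul (.c 8) (.T)) (.w))) (.mul (.mul (.mul (.c 8) (.T)) (.w)) (.s))),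
    .c 0⟩

/-- free row column 5 -/
def rf5 : RFz := ⟨⟨0, 4, 3, [(0, 1)]⟩, [0, 0, 0, 433516484736, -2013745291776, 1626391602432],
    .mul (.pow (.P) 2) (.add (.add (.add (.add (.add (.add (.mul (.mul (.mul (.c 6) (.P)) (.t)) (.v)) (.mul (.mul (.c 6) (.P)) (.pow (.t) 2))) (.mul (.mul (.mul (.c (-42)) (.P)) (.s)) (.t))) (.mul (.mul (.mul (.c (-48)) (.T)) (.t)) (.pow (.u) 2))) (.mul (.mul (.c 96) (.T)) (.pow (.t) 3))) (.mul (.mul (.mul (.c 24) (.T)) (.w)) (.t))) (.mul (.mul (.mul (.mul (.c 24) (.T)) (.w)) (.s)) (.t))),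
    .c 0⟩

/-- free row column 6 -/
def rf6 : RFz := ⟨⟨0, 5, 0, [(0, 1)]⟩, [-178064424576, 358774602624, -180710178048, 0, 178064424576, -358774602624, 180710178048],
    .mul (.P) (.mul (.c (-60)) (.T)),
    .c 0⟩

/-- free row column 7 -/
def rf7 : RFz := ⟨⟨0, 5, 1, [(0, 1)]⟩, [0, -712257698304, 1435098410496, -10583013888, -1435098410496, 722840712192],
    .mul (.P) (.mul (.mul (.c 60) (.T)) (.t)),
    .c 0⟩

/-- free row column 8 -/
def rf8 : RFz := ⟨⟨0, 5, 2, [(0, 1)]⟩, [0, 0, 2025040929408, -5057545845888, 2115418644864, 2904898230144, -1987811958528],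
    .mul (.P) (.add (.add (.add (.add (.add (.add (.mul (.mul (.c 4) (.P)) (.v)) (.mul (.mul (.c 4) (.P)) (.t))) (.mul (.mul (.c (-10)) (.P)) (.s))) (.mul (.mul (.c (-60)) (.T)) (.pow (.u) 2))) (.mul (.mul (.c 120) (.T)) (.pow (.t) 2))) (.mul (.mul (.c 10) (.T)) (.w))) (.mul (.mul (.mul (.c 10) (.T)) (.w)) (.s))),
    .c 0⟩

/-- free row column 9 -/
def rf9 : RFz := ⟨⟨0, 5, 3, [(0, 1)]⟩, [0, 0, 0, 2136773094912, -4305295231488, 2168522136576],
    .mul (.P) (.add (.add (.add (.add (.add (.add (.mul (.mul (.mul (.c 6) (.P)) (.t)) (.v)) (.mul (.mul (.c 6) (.P)) (.pow (.t) 2))) (.mul (.mul (.mul (.c (-42)) (.P)) (.s)) (.t))) (.mul (.mul (.mul (.c (-60)) (.T)) (.t)) (.pow (.u) 2))) (.mul (.mul (.c 120) (.T)) (.pow (.t) 3))) (.mul (.mul (.mul (.c 30) (.T)) (.w)) (.t))) (.mul (.mul (.mul (.mul (.c 30) (.T)) (.w)) (.s)) (.t))),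
    .c 0⟩

/-- free row column 10 -/
def rf10 : RFz := ⟨⟨0, 5, 4, [(0, 1)]⟩, [0, 0, 0, 0, 2402102131200, -8749396099584, 6505566409728],
    .mul (.P) (.add (.add (.add (.add (.add (.add (.add (.add (.add (.add (.mul (.mul (.mul (.c 8) (.P)) (.pow (.u) 2)) (.v)) (.mul (.mul (.mul (.c 8) (.P)) (.t)) (.pow (.u) 2))) (.mul (.mul (.mul (.c (-10)) (.P)) (.s)) (.pow (.u) 2))) (.mul (.mul (.mul (.c (-108)) (.P)) (.s)) (.pow (.t) 2))) (.mul (.mul (.c (-60)) (.T)) (.pow (.u) 4))) (.mul (.mul (.mul (.c 60) (.T)) (.pow (.t) 2)) (.pow (.u) 2))) (.mul (.mul (.c 60) (.T)) (.pow (.t) 4))) (.mul (.mul (.mul (.c 10) (.T)) (.w)) (.pow (.u) 2))) (.mul (.mul (.mul (.c 60) (.T)) (.w)) (.pow (.t) 2))) (.mul (.mul (.mul (.mul (.c 10) (.T)) (.w)) (.s)) (.pow (.u) 2))) (.mul (.mul (.mul (.mul (.c 60) (.T)) (.w)) (.s)) (.pow (.t) 2))),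
    .c 0⟩

/-- free row column 11 -/
def rf11 : RFz := ⟨⟨0, 6, 2, [(0, 1)]⟩, [0, 0, 5341932737280, -10763238078720, 79372604160, 10763238078720, -5421305341440],
    .add (.add (.add (.add (.add (.add (.mul (.mul (.c 4) (.P)) (.v)) (.mul (.mul (.c 4) (.P)) (.t))) (.mul (.mul (.c (-10)) (.P)) (.s))) (.mul (.mul (.c (-72)) (.T)) (.pow (.u) 2))) (.mul (.mul (.c 144) (.T)) (.pow (.t) 2))) (.mul (.mul (.c 12) (.T)) (.w))) (.mul (.mul (.mul (.c 12) (.T)) (.w)) (.s)),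
    .c 0⟩

/-- free row column 12 -/
def rf12 : RFz := ⟨⟨0, 6, 4, [(0, 1)]⟩, [0, 0, 0, 0, 10683865474560, -21526476157440, 10842610682880],
    .add (.add (.add (.add (.add (.add (.add (.add (.add (.add (.mul (.mul (.mul (.c 8) (.P)) (.pow (.u) 2)) (.v)) (.mul (.mul (.mul (.c 8) (.P)) (.t)) (.pow (.u) 2))) (.mul (.mul (.mul (.c (-10)) (.P)) (.s)) (.pow (.u) 2))) (.mul (.mul (.mul (.c (-108)) (.P)) (.s)) (.pow (.t) 2))) (.mul (.mul (.c (-72)) (.T)) (.pow (.u) 4))) (.mul (.mul (.mul (.c 72) (.T)) (.pow (.t) 2)) (.pow (.u) 2))) (.mul (.mul (.c 72) (.T)) (.pow (.t) 4))) (.mul (.mul (.mul (.c 12) (.T)) (.w)) (.pow (.u) 2))) (.mul (.mul (.mul (.c 72) (.T)) (.w)) (.pow (.t) 2))) (.mul (.mul (.mul (.mul (.c 12) (.T)) (.w)) (.s)) (.pow (.u) 2))) (.mul (.mul (.mul (.mul (.c 72) (.T)) (.w)) (.s)) (.pow (.t) 2)),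
    .c 0⟩

/-- free row column 13 -/
def rf13 : RFz := ⟨⟨0, 3, 0, [(1, 1)]⟩, [0, -86268368160, 133094583936, 107914082880, -159136755360],
    .mul (.pow (.P) 3) (.add (.mul (.c (-12)) (.P)) (.mul (.mul (.c (-36)) (.T)) (.s))),
    .c 0⟩

/-- free row column 14 -/
def rf14 : RFz := ⟨⟨0, 4, 2, [(1, 1)]⟩, [0, 0, 0, -71649304032, -4484593902720, 4743642173760],
    .mul (.pow (.P) 2) (.add (.add (.add (.add (.add (.add (.add (.add (.add (.add (.mul (.mul (.c (-12)) (.P)) (.pow (.u) 2)) (.mul (.mul (.c 24) (.P)) (.pow (.t) 2))) (.mul (.mul (.mul (.c 4) (.P)) (.s)) (.v))) (.mul (.mul (.mul (.c 4) (.P)) (.s)) (.t))) (.mul (.mul (.c (-10)) (.P)) (.pow (.s) 2))) (.mul (.mul (.c 2) (.P)) (.w))) (.mul (.mul (.mul (.c 2) (.P)) (.w)) (.s))) (.mul (.mul (.mul (.c (-48)) (.T)) (.s)) (.pow (.u) 2))) (.mul (.mul (.mul (.c 96) (.T)) (.s)) (.pow (.t) 2))) (.mul (.mul (.mul (.c 8) (.T)) (.w)) (.s))) (.mul (.mul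 (.mul (.c 8) (.T)) (.w)) (.pow (.s) 2))),
    .c 0⟩

/-- free row column 15 -/
def rf15 : RFz := ⟨⟨0, 4, 3, [(1, 1)]⟩, [0, 0, 0, 0, 668036192256, -694414932480],
    .mul (.pow (.P) 2) (.add (.add (.add (.add (.add (.add (.add (.add (.add (.add (.mul (.mul (.mul (.c (-12)) (.P)) (.t)) (.pow (.u) 2)) (.mul (.mul (.c 24) (.P)) (.pow (.t) 3))) (.mul (.mul (.mul (.mul (.c 6) (.P)) (.s)) (.t)) (.v))) (.mul (.mul (.mul (.c 6) (.P)) (.s)) (.pow (.t) 2))) (.mul (.mul (.mul (.c (-42)) (.P)) (.pow (.s) 2)) (.t))) (.mul (.mul (.mul (.c 6) (.P)) (.w)) (.t))) (.mul (.mul (.mul (.mul (.c 6) (.P)) (.w)) (.s)) (.t))) (.mul (.mul (.mul (.mul (.c (-48)) (.T)) (.s)) (.t)) (.pow (.u) 2))) (.mul (.mul (.mul (.c 96) (.T)) (.s)) (.pow (.t) 3))) (.mul (.mul (.mul (.mul (.c 24) (.T)) (.w)) (.s)) (.t))) (.mul (.mul (.mul (.mul (.c 24) (.T)) (.w)) (.pow (.s) 2)) (.t))),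
    .c 0⟩

/-- free row column 16 -/
def rf16 : RFz := ⟨⟨0, 5, 4, [(1, 1)]⟩, [0, 0, 0, 0, 0, 2004108576768, -2083244797440],
    .mul (.P) (.add (.add (.add (.add (.add (.add (.add (.add (.add (.add (.add (.add (.add (.add (.add (.add (.add (.mul (.mul (.c (-12)) (.P)) (.pow (.u) 4)) (.mul (.mul (.mul (.c 12) (.P)) (.pow (.t) 2)) (.pow (.u) 2))) (.mul (.mul (.c 12) (.P)) (.pow (.t) 4))) (.mul (.mul (.mul (.mul (.c 8) (.P)) (.s)) (.pow (.u) 2)) (.v))) (.mul (.mul (.mul (.mul (.c 8) (.P)) (.s)) (.t)) (.pow (.u) 2))) (.mul (.mul (.mul (.c (-10)) (.P)) (.pow (.s) 2)) (.pow (.u) 2))) (.mul (.mul (.mul (.c (-108)) (.P)) (.pow (.s) 2)) (.pow (.t) 2))) (.mul (.mul (.mul (.c 2) (.P)) (.w)) (.pow (.u) 2))) (.mul (.mul (.mul (.c 12) (.P)) (.w)) (.pow (.t) 2))) (.mul (.mul (.mul (.mul (.c 2) (.P)) (.w)) (.s)) (.pow (.u) 2))) (.mul (.mul (.mul (.mul (.c 12) (.P)) (.w)) (.s)) (.pow (.t) 2))) (.mul (.mul (.mul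 (.c (-60)) (.T)) (.s)) (.pow (.u) 4))) (.mul (.mul (.mul (.mul (.c 60) (.T)) (.s)) (.pow (.t) 2)) (.pow (.u) 2))) (.mul (.mul (.mul (.c 60) (.T)) (.s)) (.pow (.t) 4))) (.mul (.mul (.mul (.mul (.c 10) (.T)) (.w)) (.s)) (.pow (.u) 2))) (.mul (.mul (.mul (.mul (.c 60) (.T)) (.w)) (.s)) (.pow (.t) 2))) (.mul (.mul (.mul (.mul (.c 10) (.T)) (.w)) (.pow (.s) 2)) (.pow (.u) 2))) (.mul (.mul (.mul (.mul (.c 60) (.T)) (.w)) (.pow (.s) 2)) (.pow (.t) 2))),
    .c 0⟩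

/-- free row column 17 -/
def rf17 : RFz := ⟨⟨0, 3, 0, [(2, 1)]⟩, [0, 0, 91796056416, -225680018688, 135532633536],
    .mul (.mul (.s) (.pow (.P) 3)) (.add (.mul (.c (-24)) (.P)) (.mul (.mul (.c (-36)) (.T)) (.s))),
    .c 0⟩

/-- free row column 18 -/
def rf18 : RFz := ⟨⟨0, 4, 2, [(2, 1)]⟩, [0, 0, 0, 0, 2282456990208, -2372584352640],
    .mul (.mul (.s) (.pow (.P) 2)) (.add (.add (.add (.add (.add (.add (.add (.add (.add (.add (.mul (.mul (.c (-24)) (.P)) (.pow (.u) 2)) (.mul (.mul (.c 48) (.P)) (.pow (.t) 2))) (.mul (.mul (.mul (.c 4) (.P)) (.s)) (.v))) (.mul (.mul (.mul (.c 4) (.P)) (.s)) (.t))) (.mul (.mul (.c (-10)) (.P)) (.pow (.s) 2))) (.mul (.mul (.c 4) (.P)) (.w))) (.mul (.mul (.mul (.c 4) (.P)) (.w)) (.s))) (.mul (.mul (.mul (.c (-48)) (.T)) (.s)) (.pow (.u) 2))) (.mul (.mul (.mul (.c 96) (.T)) (.s)) (.pow (.t) 2))) (.mul (.mul (.mul (.c 8) (.T)) (.w)) (.s))) (.mul (.mul (.mul (.c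 8) (.T)) (.w)) (.pow (.s) 2))),
    .c 0⟩

/-- free row column 19 -/
def rf19 : RFz := ⟨⟨0, 3, 0, [(3, 1)]⟩, [0, 0, 0, 55669682688, -57867911040],
    .mul (.mul (.pow (.s) 2) (.pow (.P) 3)) (.add (.mul (.c (-36)) (.P)) (.mul (.mul (.c (-36)) (.T)) (.s))),
    .c 0⟩

/-- free row column 20 -/
def rf20 : RFz := ⟨⟨1, 2, 0, [(0, 1)]⟩, [47619777408, -68797800256, 6161488000, 14466977760],
    .c 0,
    .c 0⟩

/-- free row column 21 -/
def rf21 : RFz := ⟨⟨1, 3, 0, [(0, 1)]⟩, [-63379760832, 114126589600, 8236255136, -104160628416, 45177544512],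
    .c 0,
    .c 0⟩

/-- free row column 22 -/
def rf22 : RFz := ⟨⟨1, 3, 1, [(0, 1)]⟩, [0, -701202321792, 1249927540992, -361204065408, -188070710880],
    .mul (.pow (.P) 3) (.add (.add (.mul (.c (-72)) (.P)) (.mul (.mul (.c 36) (.T)) (.v))) (.mul (.mul (.c 36) (.T)) (.t))),
    .mul (.pow (.P) 3) (.mul (.c (-2)) (.P))⟩

/-- free row column 23 -/
def rf23 : RFz := ⟨⟨1, 4, 0, [(0, 1)]⟩, [-43594824768, 74262744864, 27393882432, -88729722624, 16200942336, 14466977760],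
    .c 0,
    .c 0⟩

/-- free row column 24 -/
def rf24 : RFz := ⟨⟨1, 4, 1, [(0, 1)]⟩, [0, 712257698304, -1435098410496, 144131332320, 1166017458528, -587308078656],
    .mul (.pow (.P) 2) (.add (.add (.mul (.c (-72)) (.P)) (.mul (.mul (.c 48) (.T)) (.v))) (.mul (.mul (.c 48) (.T)) (.t))),
    .mul (.pow (.P) 2) (.mul (.c (-2)) (.P))⟩

/-- free row column 25 -/
def rf25 : RFz := ⟨⟨1, 4, 3, [(0, 1)]⟩, [0, 0, 0, 517610208960, -798567503616, 271065267072],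
    .mul (.pow (.P) 2) (.add (.add (.add (.add (.add (.add (.add (.add (.add (.add (.mul (.mul (.c (-6)) (.P)) (.pow (.v) 2)) (.mul (.mul (.c (-96)) (.P)) (.pow (.u) 2))) (.mul (.mul (.mul (.c (-12)) (.P)) (.t)) (.v))) (.mul (.mul (.c (-582)) (.P)) (.pow (.t) 2))) (.mul (.mul (.mul (.c (-12)) (.P)) (.s)) (.v))) (.mul (.mul (.mul (.c (-12)) (.P)) (.s)) (.t))) (.mul (.mul (.c 6) (.P)) (.w))) (.mul (.mul (.mul (.c 6) (.P)) (.w)) (.s))) (.mul (.mul (.mul (.c 48) (.T)) (.pow (.u) 2)) (.v))) (.mul (.mul (.mul (.c 48) (.T)) (.t)) (.pow (.u) 2))) (.mul (.mul (.mul (.c (-288)) (.T)) (.s)) (.pow (.t) 2))),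
    .mul (.pow (.P) 2) (.mul (.mul (.c (-6)) (.P)) (.pow (.t) 2))⟩

/-- free row column 26 -/
def rf26 : RFz := ⟨⟨1, 5, 0, [(0, 1)]⟩, [59354808192, -119591534208, -58472890368, 239183068416, -61118643840, -119591534208, 60236726016],
    .c 0,
    .c 0⟩

/-- free row column 27 -/
def rf27 : RFz := ⟨⟨1, 5, 1, [(0, 1)]⟩, [0, 879266746368, -1608702143616, -323435082240, 1782305876736, -555831664128, -173603733120],
    .mul (.P) (.add (.add (.mul (.c (-72)) (.P)) (.mul (.mul (.c 60) (.T)) (.v))) (.mul (.mul (.c 60) (.T)) (.t))),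
    .mul (.P) (.mul (.c (-2)) (.P))⟩

/-- free row column 28 -/
def rf28 : RFz := ⟨⟨1, 5, 3, [(0, 1)]⟩, [0, 0, 0, -22110753024, 370341739008, -695438452224, 347207466240],
    .mul (.P) (.add (.add (.add (.add (.add (.add (.add (.add (.add (.add (.mul (.mul (.c (-6)) (.P)) (.pow (.v) 2)) (.mul (.mul (.c (-96)) (.P)) (.pow (.u) 2))) (.mul (.mul (.mul (.c (-12)) (.P)) (.t)) (.v))) (.mul (.mul (.c (-582)) (.P)) (.pow (.t) 2))) (.mul (.mul (.mul (.c (-12)) (.P)) (.s)) (.v))) (.mul (.mul (.mul (.c (-12)) (.P)) (.s)) (.t))) (.mul (.mul (.c 6) (.P)) (.w))) (.mul (.mul (.mul (.c 6) (.P)) (.w)) (.s))) (.mul (.mul (.mul (.c 60) (.T)) (.pow (.u) 2)) (.v))) (.mul (.mul (.mul (.c 60) (.T)) (.t)) (.pow (.u) 2))) (.mul (.mul (.mul (.c (-360)) (.T)) (.s)) (.pow (.t) 2))),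
    .mul (.P) (.mul (.mul (.c (-6)) (.P)) (.pow (.t) 2))⟩

/-- free row column 29 -/
def rf29 : RFz := ⟨⟨1, 6, 1, [(0, 1)]⟩, [0, -890322122880, 1793873013120, 877093355520, -3587746026240, 916779657600, 1793873013120, -903550890240],
    .add (.add (.mul (.c (-72)) (.P)) (.mul (.mul (.c 72) (.T)) (.v))) (.mul (.mul (.c 72) (.T)) (.t)),
    .mul (.c (-2)) (.P)⟩

/-- free row column 30 -/
def rf30 : RFz := ⟨⟨1, 6, 3, [(0, 1)]⟩, [0, 0, 0, -1780644245760, 3587746026240, -26457534720, -3587746026240, 1807101780480],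
    .add (.add (.add (.add (.add (.add (.add (.add (.add (.add (.mul (.mul (.c (-6)) (.P)) (.pow (.v) 2)) (.mul (.mul (.c (-96)) (.P)) (.pow (.u) 2))) (.mul (.mul (.mul (.c (-12)) (.P)) (.t)) (.v))) (.mul (.mul (.c (-582)) (.P)) (.pow (.t) 2))) (.mul (.mul (.mul (.c (-12)) (.P)) (.s)) (.v))) (.mul (.mul (.mul (.c (-12)) (.P)) (.s)) (.t))) (.mul (.mul (.c 6) (.P)) (.w))) (.mul (.mul (.mul (.c 6) (.P)) (.w)) (.s))) (.mul (.mul (.mul (.c 72) (.T)) (.pow (.u) 2)) (.v))) (.mul (.mul (.mul (.c 72) (.T)) (.t)) (.pow (.u) 2))) (.mul (.mul (.mul (.c (-432)) (.T)) (.s)) (.pow (.t) 2)),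
    .mul (.mul (.c (-6)) (.P)) (.pow (.t) 2)⟩

/-- free row column 31 -/
def rf31 : RFz := ⟨⟨1, 2, 0, [(1, 1)]⟩, [0, -49155246368, 94515976576, -45177544512],
    .c 0,
    .c 0⟩

/-- free row column 32 -/
def rf32 : RFz := ⟨⟨1, 3, 1, [(1, 1)]⟩, [0, 0, 200175177600, -729116341632, 542130534144],
    .mul (.pow (.P) 3) (.add (.add (.add (.add (.mul (.mul (.c 12) (.P)) (.v)) (.mul (.mul (.c 12) (.P)) (.t))) (.mul (.mul (.c (-72)) (.P)) (.s))) (.mul (.mul (.mul (.c 36) (.T)) (.s)) (.v))) (.mul (.mul (.mul (.c 36) (.T)) (.s)) (.t))),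
    .mul (.pow (.P) 3) (.mul (.mul (.c (-2)) (.P)) (.s))⟩

/-- free row column 33 -/
def rf33 : RFz := ⟨⟨1, 2, 0, [(2, 1)]⟩, [0, 0, -18556560896, 19289303680],
    .c 0,
    .c 0⟩

/-- free row column 34 -/
def rf34 : RFz := ⟨⟨1, 3, 1, [(2, 1)]⟩, [0, 0, 0, 278348413440, -289339555200],
    .mul (.mul (.s) (.pow (.P) 3)) (.add (.add (.add (.add (.mul (.mul (.c 24) (.P)) (.v)) (.mul (.mul (.c 24) (.P)) (.t))) (.mul (.mul (.c (-72)) (.P)) (.s))) (.mul (.mul (.mul (.c 36) (.T)) (.s)) (.v))) (.mul (.mul (.mul (.c 36) (.T)) (.s)) (.t))),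
    .mul (.mul (.s) (.pow (.P) 3)) (.mul (.mul (.c (-2)) (.P)) (.s))⟩

/-- free row column 35 -/
def rf35 : RFz := ⟨⟨3, 3, 0, [(0, 1)]⟩, [0, -83504524032, 86801866560, 111339365376, -115735822080],
    .mul (.pow (.P) 3) (.add (.mul (.c 60) (.P)) (.mul (.mul (.c 36) (.T)) (.s))),
    .c 0⟩

/-- free row column 36 -/
def rf36 : RFz := ⟨⟨3, 3, 1, [(0, 1)]⟩, [0, 0, 100087588800, -364558170816, 271065267072],
    .mul (.pow (.P) 3) (.add (.mul (.mul (.c 72) (.P)) (.t)) (.mul (.mul (.mul (.c 36) (.T)) (.s)) (.t))),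
    .c 0⟩

/-- free row column 37 -/
def rf37 : RFz := ⟨⟨3, 4, 0, [(0, 1)]⟩, [0, 439633373184, -804351071808, -167245229376, 983738373120, -451775445120],
    .mul (.pow (.P) 2) (.add (.mul (.c 60) (.P)) (.mul (.mul (.c 48) (.T)) (.s))),
    .c 0⟩

/-- free row column 38 -/
def rf38 : RFz := ⟨⟨3, 4, 2, [(0, 1)]⟩, [0, 0, 0, 4979883399744, -10821089875200, 5873080786560],
    .mul (.pow (.P) 2) (.add (.add (.add (.add (.add (.add (.add (.add (.add (.add (.add (.add (.mul (.mul (.c 84) (.P)) (.pow (.u) 2)) (.mul (.mul (.mul (.c 14) (.P)) (.s)) (.v))) (.mul (.mul (.mul (.c 14) (.P)) (.s)) (.t))) (.mul (.mul (.c 10) (.P)) (.pow (.s) 2))) (.mul (.mul (.c (-4)) (.P)) (.w))) (.mul (.mul (.mul (.c (-4)) (.P)) (.w)) (.s))) (.mul (.mul (.mul (.c 48) (.T)) (.s)) (.pow (.u) 2))) (.mul (.mul (.mul (.c (-8)) (.T)) (.w)) (.v))) (.mul (.mul (.mul (.c (-8)) (.T)) (.w)) (.t))) (.mul (.mul (.mul (.c (-8)) (.T))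 (.w)) (.s))) (.mul (.mul (.mul (.mul (.c (-8)) (.T)) (.w)) (.s)) (.v))) (.mul (.mul (.mul (.mul (.c (-8)) (.T)) (.w)) (.s)) (.t))) (.mul (.mul (.mul (.c (-8)) (.T)) (.w)) (.pow (.s) 2))),
    .c 0⟩

/-- free row column 39 -/
def rf39 : RFz := ⟨⟨3, 4, 3, [(0, 1)]⟩, [0, 0, 0, 0, 501027144192, -520811199360],
    .mul (.pow (.P) 2) (.add (.add (.add (.add (.add (.add (.add (.add (.add (.add (.add (.add (.add (.add (.mul (.mul (.mul (.c 288) (.P)) (.t)) (.pow (.u) 2)) (.mul (.mul (.c (-192)) (.P)) (.pow (.t) 3))) (.mul (.mul (.mul (.mul (.c 48) (.P)) (.s)) (.t)) (.v))) (.mul (.mul (.mul (.c 48) (.P)) (.s)) (.pow (.t) 2))) (.mul (.mul (.mul (.c 42) (.P)) (.pow (.s) 2)) (.t))) (.mul (.mul (.mul (.c (-6)) (.P)) (.w)) (.t))) (.mul (.mul (.mul (.mul (.c (-6)) (.P)) (.w)) (.s)) (.t))) (.mul (.mul (.mul (.mul (.c 144) (.T)) (.s)) (.t)) (.pow (.u) 2))) (.mul (.mul (.mul (.c (-96)) (.T)) (.s)) (.pow (.t)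 3))) (.mul (.mul (.mul (.mul (.c (-24)) (.T)) (.w)) (.t)) (.v))) (.mul (.mul (.mul (.c (-24)) (.T)) (.w)) (.pow (.t) 2))) (.mul (.mul (.mul (.mul (.c (-24)) (.T)) (.w)) (.s)) (.t))) (.mul (.mul (.mul (.mul (.mul (.c (-24)) (.T)) (.w)) (.s)) (.t)) (.v))) (.mul (.mul (.mul (.mul (.c (-24)) (.T)) (.w)) (.s)) (.pow (.t) 2))) (.mul (.mul (.mul (.mul (.c (-24)) (.T)) (.w)) (.pow (.s) 2)) (.t))),
    .c 0⟩

/-- free row column 40 -/
def rf40 : RFz := ⟨⟨3, 5, 0, [(0, 1)]⟩, [0, -356128849152, 717549205248, -5291506944, -717549205248, 361420356096],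
    .mul (.P) (.add (.mul (.c 60) (.P)) (.mul (.mul (.c 60) (.T)) (.s))),
    .c 0⟩

/-- free row column 41 -/
def rf41 : RFz := ⟨⟨3, 5, 2, [(0, 1)]⟩, [0, 0, 0, -66332259072, 1111025217024, -2086315356672, 1041622398720],
    .mul (.P) (.add (.add (.add (.add (.add (.add (.add (.add (.add (.add (.add (.add (.mul (.mul (.c 84) (.P)) (.pow (.u) 2)) (.mul (.mul (.mul (.c 14) (.P)) (.s)) (.v))) (.mul (.mul (.mul (.c 14) (.P)) (.s)) (.t))) (.mul (.mul (.c 10) (.P)) (.pow (.s) 2))) (.mul (.mul (.c (-4)) (.P)) (.w))) (.mul (.mul (.mul (.c (-4)) (.P)) (.w)) (.s))) (.mul (.mul (.mul (.c 60) (.T)) (.s)) (.pow (.u) 2))) (.mul (.mul (.mul (.c (-10)) (.T)) (.w)) (.v))) (.mul (.mul (.mul (.c (-10)) (.T)) (.w)) (.t))) (.mul (.mul (.mul (.c (-10)) (.T)) (.w)) (.s))) (.mul (.mul (.mul (.mul (.c (-10)) (.T)) (.w)) (.s)) (.v))) (.mul (.mul (.mul (.mul (.c (-10)) (.T)) (.w)) (.s)) (.t))) (.mul (.mul (.mul (.c (-10))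 (.T)) (.w)) (.pow (.s) 2))),
    .c 0⟩

/-- free row column 42 -/
def rf42 : RFz := ⟨⟨3, 5, 3, [(0, 1)]⟩, [0, 0, 0, 0, -2136773094912, 4305295231488, -2168522136576],
    .mul (.P) (.add (.add (.add (.add (.add (.add (.add (.add (.add (.add (.add (.add (.add (.add (.mul (.mul (.mul (.c 288) (.P)) (.t)) (.pow (.u) 2)) (.mul (.mul (.c (-192)) (.P)) (.pow (.t) 3))) (.mul (.mul (.mul (.mul (.c 48) (.P)) (.s)) (.t)) (.v))) (.mul (.mul (.mul (.c 48) (.P)) (.s)) (.pow (.t) 2))) (.mul (.mul (.mul (.c 42) (.P)) (.pow (.s) 2)) (.t))) (.mul (.mul (.mul (.c (-6)) (.P)) (.w)) (.t))) (.mul (.mul (.mul (.mul (.c (-6)) (.P)) (.w)) (.s)) (.t))) (.mul (.mul (.mul (.mul (.c 180) (.T)) (.s)) (.t)) (.pow (.u) 2))) (.mul (.mul (.mul (.c (-120)) (.T)) (.s)) (.pow (.t) 3))) (.mul (.mul (.mul (.mul (.c (-30)) (.T)) (.w)) (.t)) (.v))) (.mul (.mul (.mul (.c (-30)) (.T)) (.w)) (.pow (.t) 2))) (.mul (.mul (.mul (.mul (.c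 (-30)) (.T)) (.w)) (.s)) (.t))) (.mul (.mul (.mul (.mul (.mul (.c (-30)) (.T)) (.w)) (.s)) (.t)) (.v))) (.mul (.mul (.mul (.mul (.c (-30)) (.T)) (.w)) (.s)) (.pow (.t) 2))) (.mul (.mul (.mul (.mul (.c (-30)) (.T)) (.w)) (.pow (.s) 2)) (.t))),
    .c 0⟩

/-- free row column 43 -/
def rf43 : RFz := ⟨⟨3, 5, 4, [(0, 1)]⟩, [0, 0, 0, 0, 0, 2004108576768, -2083244797440],
    .mul (.P) (.add (.add (.add (.add (.add (.add (.add (.add (.add (.add (.add (.add (.add (.add (.add (.add (.add (.add (.add (.add (.add (.add (.add (.add (.add (.mul (.mul (.c 108) (.P)) (.pow (.u) 4)) (.mul (.mul (.mul (.c 540) (.P)) (.pow (.t) 2)) (.pow (.u) 2))) (.mul (.mul (.c (-540)) (.P)) (.pow (.t) 4))) (.mul (.mul (.mul (.mul (.c 18) (.P)) (.s)) (.pow (.u) 2)) (.v))) (.mul (.mul (.mul (.mul (.c 18) (.P)) (.s)) (.t)) (.pow (.u) 2))) (.mul (.mul (.mul (.mul (.c 108) (.P)) (.s)) (.pow (.t) 2)) (.v))) (.mul (.mul (.mul (.c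 108) (.P)) (.s)) (.pow (.t) 3))) (.mul (.mul (.mul (.c 10) (.P)) (.pow (.s) 2)) (.pow (.u) 2))) (.mul (.mul (.mul (.c 108) (.P)) (.pow (.s) 2)) (.pow (.t) 2))) (.mul (.mul (.mul (.c (-8)) (.P)) (.w)) (.pow (.u) 2))) (.mul (.mul (.mul (.mul (.c (-8)) (.P)) (.w)) (.s)) (.pow (.u) 2))) (.mul (.mul (.mul (.c 60) (.T)) (.s)) (.pow (.u) 4))) (.mul (.mul (.mul (.mul (.c 300) (.T)) (.s)) (.pow (.t) 2)) (.pow (.u) 2))) (.mul (.mul (.mul (.c (-300)) (.T)) (.s)) (.pow (.t) 4))) (.mul (.mul (.mul (.mul (.c (-10)) (.T)) (.w)) (.pow (.u) 2)) (.v))) (.mul (.mul (.mul (.mul (.c (-10)) (.T)) (.w)) (.t)) (.pow (.u) 2))) (.mul (.mul (.mul (.mul (.c (-60)) (.T)) (.w)) (.pow (.t) 2)) (.v))) (.mul (.mul (.mul (.c (-60)) (.T)) (.w)) (.pow (.t) 3))) (.mul (.mul (.mul (.mul (.c (-10)) (.T)) (.w)) (.s)) (.pow (.u) 2))) (.mul (.mul (.mul (.mul (.mul (.c (-10)) (.T)) (.w)) (.s)) (.pow (.u) 2)) (.v))) (.mul (.mul (.mul (.mul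 (.mul (.c (-10)) (.T)) (.w)) (.s)) (.t)) (.pow (.u) 2))) (.mul (.mul (.mul (.mul (.c (-60)) (.T)) (.w)) (.s)) (.pow (.t) 2))) (.mul (.mul (.mul (.mul (.mul (.c (-60)) (.T)) (.w)) (.s)) (.pow (.t) 2)) (.v))) (.mul (.mul (.mul (.mul (.c (-60)) (.T)) (.w)) (.s)) (.pow (.t) 3))) (.mul (.mul (.mul (.mul (.c (-10)) (.T)) (.w)) (.pow (.s) 2)) (.pow (.u) 2))) (.mul (.mul (.mul (.mul (.c (-60)) (.T)) (.w)) (.pow (.s) 2)) (.pow (.t) 2))),
    .c 0⟩

/-- free row column 44 -/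
def rf44 : RFz := ⟨⟨3, 6, 2, [(0, 1)]⟩, [0, 0, 0, -5341932737280, 10763238078720, -79372604160, -10763238078720, 5421305341440],
    .add (.add (.add (.add (.add (.add (.add (.add (.add (.add (.add (.add (.mul (.mul (.c 84) (.P)) (.pow (.u) 2)) (.mul (.mul (.mul (.c 14) (.P)) (.s)) (.v))) (.mul (.mul (.mul (.c 14) (.P)) (.s)) (.t))) (.mul (.mul (.c 10) (.P)) (.pow (.s) 2))) (.mul (.mul (.c (-4)) (.P)) (.w))) (.mul (.mul (.mul (.c (-4)) (.P)) (.w)) (.s))) (.mul (.mul (.mul (.c 72) (.T)) (.s)) (.pow (.u) 2))) (.mul (.mul (.mul (.c (-12)) (.T)) (.w)) (.v))) (.mul (.mul (.mul (.c (-12)) (.T)) (.w)) (.t))) (.mul (.mul (.mul (.c (-12)) (.T)) (.w)) (.s))) (.mul (.mul (.mul (.mul (.c (-12)) (.T)) (.w)) (.s)) (.v))) (.mul (.mul (.mul (.mul (.c (-12)) (.T)) (.w)) (.s)) (.t))) (.mul (.mul (.mul (.c (-12)) (.T)) (.w)) (.pow (.s) 2)),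
    .c 0⟩

/-- free row column 45 -/
def rf45 : RFz := ⟨⟨3, 6, 4, [(0, 1)]⟩, [0, 0, 0, 0, 0, -10683865474560, 21526476157440, -10842610682880],
    .add (.add (.add (.add (.add (.add (.add (.add (.add (.add (.add (.add (.add (.add (.add (.add (.add (.add (.add (.add (.add (.add (.add (.add (.add (.mul (.mul (.c 108) (.P)) (.pow (.u) 4)) (.mul (.mul (.mul (.c 540) (.P)) (.pow (.t) 2)) (.pow (.u) 2))) (.mul (.mul (.c (-540)) (.P)) (.pow (.t) 4))) (.mul (.mul (.mul (.mul (.c 18) (.P)) (.s)) (.pow (.u) 2)) (.v))) (.mul (.mul (.mul (.mul (.c 18) (.P)) (.s)) (.t)) (.pow (.u) 2))) (.mul (.mul (.mul (.mul (.c 108) (.P)) (.s)) (.pow (.t) 2)) (.v))) (.mul (.mul (.mul (.c 108) (.P)) (.s)) (.pow (.t) 3))) (.mul (.mul (.mul (.c 10) (.P)) (.pow (.s) 2)) (.pow (.u) 2))) (.mul (.mul (.mul (.c 108) (.P)) (.pow (.s) 2)) (.pow (.t) 2))) (.mul (.mul (.mul (.c (-8)) (.P)) (.w)) (.pow (.u) 2))) (.mul (.mul (.mul (.mul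 (.c (-8)) (.P)) (.w)) (.s)) (.pow (.u) 2))) (.mul (.mul (.mul (.c 72) (.T)) (.s)) (.pow (.u) 4))) (.mul (.mul (.mul (.mul (.c 360) (.T)) (.s)) (.pow (.t) 2)) (.pow (.u) 2))) (.mul (.mul (.mul (.c (-360)) (.T)) (.s)) (.pow (.t) 4))) (.mul (.mul (.mul (.mul (.c (-12)) (.T)) (.w)) (.pow (.u) 2)) (.v))) (.mul (.mul (.mul (.mul (.c (-12)) (.T)) (.w)) (.t)) (.pow (.u) 2))) (.mul (.mul (.mul (.mul (.c (-72)) (.T)) (.w)) (.pow (.t) 2)) (.v))) (.mul (.mul (.mul (.c (-72)) (.T)) (.w)) (.pow (.t) 3))) (.mul (.mul (.mul (.mul (.c (-12)) (.T)) (.w)) (.s)) (.pow (.u) 2))) (.mul (.mul (.mul (.mul (.mul (.c (-12)) (.T)) (.w)) (.s)) (.pow (.u) 2)) (.v))) (.mul (.mul (.mul (.mul (.mul (.c (-12)) (.T)) (.w)) (.s)) (.t)) (.pow (.u) 2))) (.mul (.mul (.mul (.mul (.c (-72)) (.T)) (.w)) (.s)) (.pow (.t) 2))) (.mul (.mul (.mul (.mul (.mul (.c (-72)) (.T)) (.w)) (.s)) (.pow (.t) 2)) (.v))) (.mul (.mul (.mul (.mul (.c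 (-72)) (.T)) (.w)) (.s)) (.pow (.t) 3))) (.mul (.mul (.mul (.mul (.c (-12)) (.T)) (.w)) (.pow (.s) 2)) (.pow (.u) 2))) (.mul (.mul (.mul (.mul (.c (-72)) (.T)) (.w)) (.pow (.s) 2)) (.pow (.t) 2)),
    .c 0⟩

/-- free row column 46 -/
def rf46 : RFz := ⟨⟨3, 3, 0, [(1, 1)]⟩, [0, 0, 272624325120, -630747338688, 361420356096],
    .mul (.pow (.P) 3) (.add (.mul (.mul (.c 72) (.P)) (.s)) (.mul (.mul (.c 36) (.T)) (.pow (.s) 2))),
    .c 0⟩

/-- free row column 47 -/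
def rf47 : RFz := ⟨⟨3, 3, 1, [(1, 1)]⟩, [0, 0, 0, 139174206720, -144669777600],
    .mul (.pow (.P) 3) (.add (.mul (.mul (.mul (.c 84) (.P)) (.s)) (.t)) (.mul (.mul (.mul (.c 36) (.T)) (.pow (.s) 2)) (.t))),
    .c 0⟩

/-- free row column 48 -/
def rf48 : RFz := ⟨⟨3, 4, 2, [(1, 1)]⟩, [0, 0, 0, 0, 1558751115264, -1620301509120],
    .mul (.pow (.P) 2) (.add (.add (.add (.add (.add (.add (.add (.add (.add (.add (.add (.add (.add (.add (.add (.add (.mul (.mul (.mul (.c 96) (.P)) (.s)) (.pow (.u) 2)) (.mul (.mul (.mul (.c 14) (.P)) (.pow (.s) 2)) (.v))) (.mul (.mul (.mul (.c 14) (.P)) (.pow (.s) 2)) (.t))) (.mul (.mul (.c 10) (.P)) (.pow (.s) 3))) (.mul (.mul (.mul (.c (-2)) (.P)) (.w)) (.v))) (.mul (.mul (.mul (.c (-2)) (.P)) (.w)) (.t))) (.mul (.mul (.mul (.c (-6)) (.P)) (.w)) (.s))) (.mul (.mul (.mul (.mul (.c (-2)) (.P)) (.w)) (.s)) (.v))) (.mul (.mul (.mul (.mul (.c (-2)) (.P)) (.w)) (.s)) (.t)))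 (.mul (.mul (.mul (.c (-6)) (.P)) (.w)) (.pow (.s) 2))) (.mul (.mul (.mul (.c 48) (.T)) (.pow (.s) 2)) (.pow (.u) 2))) (.mul (.mul (.mul (.mul (.c (-8)) (.T)) (.w)) (.s)) (.v))) (.mul (.mul (.mul (.mul (.c (-8)) (.T)) (.w)) (.s)) (.t))) (.mul (.mul (.mul (.c (-8)) (.T)) (.w)) (.pow (.s) 2))) (.mul (.mul (.mul (.mul (.c (-8)) (.T)) (.w)) (.pow (.s) 2)) (.v))) (.mul (.mul (.mul (.mul (.c (-8)) (.T)) (.w)) (.pow (.s) 2)) (.t))) (.mul (.mul (.mul (.c (-8)) (.T)) (.w)) (.pow (.s) 3))),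
    .c 0⟩

/-- free row column 49 -/
def rf49 : RFz := ⟨⟨3, 3, 0, [(2, 1)]⟩, [0, 0, 0, 139174206720, -144669777600],
    .mul (.mul (.s) (.pow (.P) 3)) (.add (.mul (.mul (.c 84) (.P)) (.s)) (.mul (.mul (.c 36) (.T)) (.pow (.s) 2))),
    .c 0⟩

/-- the free value columns -/
def lf : List VFz := [vf0, vf1, vf2, vf3, vf4, vf5, vf6, vf7, vf8, vf9, vf10, vf11, vf12, vf13, vf14, vf15, vf16, vf17, vf18, vf19, vf20, vf21, vf22, vf23, vf24, vf25, vf26, vf27, vf28, vf29, vf30, vf31, vf32, vf33, vf34, vf35, vf36, vf37, vf38, vf39, vf40, vf41, vf42, vf43, vf44, vf45, vf46, vf47, vf48, vf49, vf50, vf51, vf52, vf53, vf54, vf55, vf56, vf57, vf58, vf59, vf60, vf61, vf62, vf63, vf64, vf65, vf66, vf67, vf68, vf69, vf70, vf71, vf72, vf73, vf74, vf75, vf76, vf77, vf78, vf79, vf80, vf81, vf82, vf83, vf84, vf85, vf86, vf87, vf88, vf89, vf90, vf91, vf92, vf93, vf94, vf95, vf96, vf97, vf98, vf99, vf100, vf101, vf102,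 vf103, vf104, vf105, vf106, vf107, vf108, vf109, vf110, vf111, vf112, vf113, vf114, vf115, vf116, vf117, vf118, vf119, vf120, vf121, vf122, vf123, vf124, vf125, vf126, vf127, vf128, vf129, vf130, vf131, vf132, vf133, vf134, vf135, vf136, vf137, vf138, vf139, vf140, vf141, vf142, vf143, vf144, vf145, vf146, vf147, vf148, vf149, vf150, vf151, vf152, vf153, vf154, vf155, vf156, vf157, vf158, vf159, vf160, vf161, vf162, vf163, vf164, vf165, vf166, vf167, vf168, vf169, vf170, vf171, vf172, vf173, vf174, vf175, vf176, vf177, vf178, vf179, vf180, vf181, vf182, vf183, vf184, vf185, vf186, vf187, vf188, vf189, vf190, vf191, vf192, vf193, vf194, vf195, vf196, vf197, vf198, vf199, vf200, vf201, vf202, vf203, vf204, vf205, vf206, vf207, vf208, vf209]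

/-- the free row columns -/
def rf : List RFz := [rf0, rf1, rf2, rf3, rf4, rf5, rf6, rf7, rf8, rf9, rf10, rf11, rf12, rf13, rf14, rf15, rf16, rf17, rf18, rf19, rf20, rf21, rf22, rf23, rf24, rf25, rf26, rf27, rf28, rf29, rf30, rf31, rf32, rf33, rf34, rf35, rf36, rf37, rf38, rf39, rf40, rf41, rf42, rf43, rf44, rf45, rf46, rf47, rf48, rf49]

/-- all columns -/
def cl : List Cz := clZ (VD dl c0 kB kF lb lf) (RD dl c0 kB kF rb rf)

set_option maxRecDepth 100000 in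
lemma ok_all : okD lb lf rb rf = true := by decide +kernel

set_option maxRecDepth 100000 in
/-- the errors -/
lemma err_ok : errZ 12 3 5 cl 527475672 2415920 = true := by decide +kernel

end

end Vale.Agent.P224.SP.Z5
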